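import Vale.Agent.P354SG.Defs

/-!
INV and IJ: the inverse of a map near the identity, and its jets.
-/

set_option maxSynthPendingDepth 3

open scoped ContDiff Topology
open Set Filter Function Metric

namespace Vale.Agent.P354SG

open Vale.Agent.P354n (R4)
open Vale.Agent.P354YQ (SA JB JD oj_jd)
open Vale.Agent.P354YI (Oj Jb at_fd fd_comp ev_inv ev_dif)

/-- The jets of right inverses. -/
theorem oj_rinv {J E : Type} [NormedAddCommGroup E] [NormedSpace ℝ E] [CompleteSpace E]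
    {x : J → E} {Y I : J → E → E} (hI : ∀ j, ContDiffAt ℝ ∞ (I j) (x j))
    (hY : ∀ j, ContDiffAt ℝ ∞ (Y j) (I j (x j))) (e : ∀ j, ∀ᶠ z in 𝓝 (x j), Y j (I j z) = z)
    (hi : ∀ j, (fderiv ℝ (Y j) (I j (x j))).IsInvertible)
    (hb : ∃ C, ∀ j, ‖(fderiv ℝ (Y j) (I j (x j))).inverse‖ ≤ C) {m : ℕ}
    (h : Oj m (fun j => I j (x j)) (fun j => fderiv ℝ (Y j)) 1) :
    Oj m x (fun j => fderiv ℝ (I j)) 1 := by
  have k : ∀ j, fderiv ℝ (I j) =ᶠ[𝓝 (x j)] fun z => (fderiv ℝ (Y j) (I j z)).inverse := fun j => by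
    filter_upwards [fd_comp (hY j) (hI j), (e j).eventually_nhds,
      (hI j).continuousAt.eventually (ev_inv (at_fd (hY j)).continuousAt (hi j))] with z a b c
    rw [EventuallyEq.fderiv_eq (show (fun y => Y j (I j y)) =ᶠ[𝓝 z] id from b), fderiv_id] at a
    rw [← ContinuousLinearMap.comp_id (fderiv ℝ (Y j) (I j z)).inverse, a,
      ← ContinuousLinearMap.comp_assoc, c.inverse_comp_self, ContinuousLinearMap.id_comp]
  have h0 : Oj 0 x (fun j => fderiv ℝ (I j)) 1 := .zero (fun j => at_fd (hI j)) h.nn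
    (hb.imp fun C c j => by rw [(k j).eq_of_nhds]; simpa using c j)
  induction m with
  | zero => exact h0
  | succ m ih => exact (Oj.comp hI (m + 1) (ih h.pred) (Oj.inv hi hb h)).congr k

/-- The map with the given angular part. -/
def up (y : R4 → R2) (x : R4) : R4 := (x.1, x.2.1, y x)

variable {y : R4 → R2} {x : R4}

theorem up_cd (h : ContDiffAt ℝ ∞ y x) : ContDiffAt ℝ ∞ (up y) x :=
  contDiffAt_fst.prodMk (contDiffAt_snd.fst.prodMk h)

theorem up_fd (h : DifferentiableAt ℝ y x) : fderiv ℝ (up y) x = (ContinuousLinearMap.fst ℝ _ _).prod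
    (((ContinuousLinearMap.fst ℝ _ _).comp (.snd ℝ _ _)).prod (fderiv ℝ y x)) :=
  (hasFDerivAt_fst.prodMk (hasFDerivAt_snd.fst.prodMk h.hasFDerivAt)).fderiv

theorem up_low (h : DifferentiableAt ℝ y x) {C : ℝ} (hC : ‖fderiv ℝ y x‖ ≤ C)
    (k : ∀ η : R2, ‖fderiv ℝ y x (0, 0, η) - η‖ ≤ ‖η‖ / 2) (v : R4) :
    ‖v‖ ≤ 2 * (1 + C) * ‖fderiv ℝ (up y) x v‖ := by
  have c0 := (norm_nonneg _).trans hC
  rw [up_fd h]
  obtain ⟨a, b, η⟩ := v
  generalize fderiv ℝ y x = A at *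
  let N := ‖((a, b, A (a, b, η)) : R4)‖
  have n0 : 0 ≤ N := norm_nonneg _
  have h1 : ‖a‖ ≤ N := norm_fst_le ((a, b, A (a, b, η)) : R4)
  have h2 : ‖(b, A (a, b, η))‖ ≤ N := norm_snd_le ((a, b, A (a, b, η)) : R4)
  have h3 : ‖b‖ ≤ N := (norm_fst_le (b, A (a, b, η))).trans h2
  have h4 : ‖A (a, b, η)‖ ≤ N := (norm_snd_le (b, A (a, b, η))).trans h2
  have h5 : ‖A (a, b, 0)‖ ≤ C * N := A.le_of_opNorm_le_of_le hC
    (norm_prod_le_iff.2 ⟨h1, norm_prod_le_iff.2 ⟨h3, norm_zero.trans_le n0⟩⟩)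
  have h6 : η = A (a, b, η) - A (a, b, 0) - (A (0, 0, η) - η) := by
    rw [← map_sub]
    simp
  have h7 := norm_sub_le_of_le (norm_sub_le_of_le h4 h5) (k η)
  rw [← h6] at h7
  have := mul_nonneg c0 n0
  exact norm_prod_le_iff.2 ⟨show _ ≤ _ * N by linarith,
    norm_prod_le_iff.2 ⟨show _ ≤ _ * N by linarith, show _ ≤ _ * N by linarith⟩⟩

theorem inv_low {A : R4 →L[ℝ] R4} {C : ℝ} (c0 : 0 ≤ C) (h : ∀ v, ‖v‖ ≤ C * ‖A v‖) :
    A.IsInvertible ∧ ‖A.inverse‖ ≤ C := by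
  have i : Injective A := (injective_iff_map_eq_zero A).2 fun v k => by simpa [k] using h v
  have j : A.IsInvertible := ⟨(LinearEquiv.ofInjectiveEndo (A : R4 →ₗ[ℝ] R4) i
    ).toContinuousLinearEquiv, ContinuousLinearMap.ext fun _ => rfl⟩
  refine ⟨j, A.inverse.opNorm_le_bound c0 fun v => ?_⟩
  simpa [j.self_apply_inverse] using h (A.inverse v)

/-- **IJ.** -/
theorem ij : IJ := by
  intro k C
  cases k with
  | zero => exact ⟨1, le_rfl, fun y ι x s _ _ _ => .zero s⟩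
  | succ m =>
  let J := {j : (R4 → R2) × (R4 → R2) × R4 // SA j.2.1 j.2.2 ∧ JD (m + 1) j.1 (up j.2.1 j.2.2) C ∧
    (∀ η : R2, ‖fderiv ℝ j.1 (up j.2.1 j.2.2) (0, 0, η) - η‖ ≤ ‖η‖ / 2) ∧
    ∀ᶠ z in 𝓝 j.2.2, j.1 (up j.2.1 z) = z.2.2}
  have b := fun j : J => j.2.2.1.fderiv
  have l := fun j : J => inv_low (by linarith [(b j).nonneg])
    (up_low j.2.2.1.sm.diff (b j).zero j.2.2.2.1)
  have d : Oj m (fun j : J => up j.1.2.1 j.1.2.2) (fun j => fderiv ℝ j.1.1) 1 :=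
    .of1 (fun j => (b j).sm.at) fun j => (b j).le
  have a := oj_rinv (Y := fun j : J => up j.1.1) (I := fun j => up j.1.2.1)
    (fun j => up_cd j.2.1.at) (fun j => up_cd j.2.2.1.sm.at)
    (fun j => j.2.2.2.2.mono fun z e => Prod.ext rfl (Prod.ext rfl e)) (fun j => (l j).1)
    ⟨_, fun j => (l j).2⟩ (m := m) ((((Oj.cst (ContinuousLinearMap.fst ℝ ℝ (ℝ × R2))).pair
      (((Oj.cst ((ContinuousLinearMap.fst ℝ ℝ R2).comp (.snd ℝ ℝ _))).pair d).clm
        (ContinuousLinearMap.prodL ℝ).toContinuousLinearMap)).clm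
        (ContinuousLinearMap.prodL ℝ).toContinuousLinearMap).congr fun j =>
      (ev_dif j.2.2.1.sm.at).mono fun z e => up_fd e)
  obtain ⟨F, hF⟩ := oj_jd a fun j => j.2.1.mono fun _ => up_cd
  let L : R4 →L[ℝ] R2 := (ContinuousLinearMap.snd ℝ _ _).comp (.snd ℝ _ _)
  exact ⟨max 1 (‖L‖ * F), le_max_left _ _, fun y ι x h1 h2 h3 h4 =>
    ((hF ⟨(y, ι, x), h1, h2, h3, h4⟩).clm L).mono (le_max_right _ _)⟩

theorem cyl_open {Bs : Set R2} (h : IsOpen Bs) (ρ : ℝ) : IsOpen (Cyl Bs ρ) :=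
  (h.preimage (f := fun x : R4 => (x.1, x.2.1)) (by fun_prop)).inter
    (isOpen_lt (f := fun x : R4 => ‖x.2.2‖) (by fun_prop) continuous_const)

/-- **INV.** -/
theorem inv : INV := by
  intro Bs y o s h
  have sm := fun x hx => s.contDiffAt ((cyl_open o 7).mem_nhds (x := x) hx)
  have df := fun x hx => (sm x hx).differentiableAt (by simp)
  have ap : ∀ a b, (a, b) ∈ Bs → ApproximatesLinearOn (fun η => y (a, b, η)) (.id ℝ R2)
      (ball 0 7) (1 / 2) := fun a b m η hη ζ hζ => by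
    have c : ∀ ξ ∈ ball (0 : R2) 7, ((a, b, ξ) : R4) ∈ Cyl Bs 7 := fun ξ k =>
      ⟨m, mem_ball_zero_iff.1 k⟩
    have := (convex_ball (0 : R2) 7).norm_image_sub_le_of_norm_hasFDerivWithin_le' (𝕜 := ℝ)
      (f := fun η => y (a, b, η)) (φ := .id ℝ R2) (C := 1 / 2) (fun ξ k =>
        ((df _ (c ξ k)).hasFDerivAt.comp ξ ((hasFDerivAt_prodMk_right a (b, ξ)).comp ξ
          (hasFDerivAt_prodMk_right b ξ))).hasFDerivWithinAt)
      (fun ξ k => ContinuousLinearMap.opNorm_le_bound _ (by norm_num) fun v =>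
        ((h _ (c ξ k)).2 v).trans_eq (by ring)) hζ hη
    simpa using this
  have inj : InjOn (up y) (Cyl Bs 7) := by
    rintro ⟨a, b, η⟩ p ⟨a', b', ζ⟩ q e
    simp only [up, Prod.mk.injEq] at e
    obtain ⟨rfl, rfl, e⟩ := e
    have := ap a b p.1 η (mem_ball_zero_iff.2 p.2) ζ (mem_ball_zero_iff.2 q.2)
    simp only [e, sub_self, zero_sub, norm_neg, ContinuousLinearMap.id_apply] at this
    rw [sub_eq_zero.1 (norm_le_zero_iff.1 (by push_cast at this; linarith : ‖η - ζ‖ ≤ 0))]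
  have sur : ∀ x ∈ Cyl Bs 6, ∃ q ∈ Cyl Bs 7, up y q = x := fun x hx => by
    have sub : closedBall x.2.2 1 ⊆ ball 0 7 := closedBall_subset_ball' (by
      rw [dist_zero_right]
      linarith [hx.2])
    obtain ⟨η, m, e⟩ := (ap _ _ hx.1).surjOn_closedBall_of_nonlinearRightInverse
      ⟨id, 1, fun _ => by simp, fun _ => rfl⟩ zero_le_one sub (a := x.2.2) (by
        rw [mem_closedBall_iff_norm']
        exact (h x ⟨hx.1, by linarith [hx.2]⟩).1.trans (by norm_num))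
    exact ⟨(x.1, x.2.1, η), ⟨hx.1, mem_ball_zero_iff.1 (sub m)⟩, Prod.ext rfl (Prod.ext rfl e)⟩
  refine ⟨fun x => (invFunOn (up y) (Cyl Bs 7) x).2.2, fun x hx => ?_, fun x hx => ?_⟩
  · obtain ⟨q, m, rfl⟩ := sur x hx
    obtain ⟨A, hA⟩ := (inv_low (by positivity) (up_low (df q m) le_rfl (h q m).2)).1
    have c := up_cd (sm q m)
    have d : HasFDerivAt (up y) (A : R4 →L[ℝ] R4) q :=
      hA ▸ (c.differentiableAt (by simp)).hasFDerivAt
    exact ((c.to_localInverse d (by simp)).congr_of_eventuallyEq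
      ((c.hasStrictFDerivAt' d (by simp)).localInverse_unique (mem_of_superset
        ((cyl_open o 7).mem_nhds m) inj.leftInvOn_invFunOn))).snd.snd.contDiffWithinAt
  · obtain ⟨q, m, rfl⟩ := sur x hx
    simp only [inj.leftInvOn_invFunOn m]
    exact ⟨m.2, rfl⟩

end Vale.Agent.P354SG
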