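import Vale.Agent.P354SG.Defs
import Mathlib.Analysis.Calculus.Deriv.ZPow

/-!
Calculus for the classes Cl: rescaling, the gain of the derivatives, products and quotients.
-/

open scoped ContDiff Topology Nat
open Set Filter

noncomputable section

namespace Vale.Agent.P354SG.Cq

open Vale.Agent.P354n (R4)
open Vale.Agent.P354XE (Tw)
open Vale.Agent.P354YQ (SA JB JD)
open Vale.Agent.P354SA

/-- The linear part of dl. -/
def sc (l k : ℝ) : R4 →L[ℝ] R4 :=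
  (l • ContinuousLinearMap.fst ℝ ℝ _).prod (k • ContinuousLinearMap.snd ℝ ℝ _)

theorem sc_ap (l k : ℝ) (v : R4) : sc l k v = (l * v.1, k • v.2) := rfl

theorem dl_eq (l k : ℝ) (z ξ : R4) : dl l k z ξ = z + sc l k ξ := rfl

theorem dl_zero (l k : ℝ) (z : R4) : dl l k z 0 = z := by rw [dl_eq, map_zero, add_zero]

theorem sc_le {l k D : ℝ} (hl : |l| ≤ D) (hk : |k| ≤ D) : ‖sc l k‖ ≤ D :=
  ContinuousLinearMap.opNorm_le_bound _ ((abs_nonneg _).trans hl) fun v => by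
    rw [sc_ap, Prod.norm_def, norm_mul, norm_smul]
    exact max_le (mul_le_mul hl (norm_fst_le v) (norm_nonneg _) ((abs_nonneg _).trans hl))
      (mul_le_mul hk (norm_snd_le v) (norm_nonneg _) ((abs_nonneg _).trans hl))

theorem dl_fd (l k : ℝ) (z ξ : R4) : HasFDerivAt (dl l k z) (sc l k) ξ :=
  (sc l k).hasFDerivAt.const_add z

theorem dl_cd (l k : ℝ) (z : R4) : ContDiff ℝ ∞ (dl l k z) :=
  contDiff_const.add (sc l k).contDiff

theorem dl_jd {n : ℕ} (l k : ℝ) (z ξ : R4) : JD n (dl l k z) ξ ‖sc l k‖ :=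
  (((JD.const z).add (JD.lin (sc l k))).mono (zero_add _).le).congr (.of_forall fun _ => rfl)

theorem dl_dl (l k a b : ℝ) (z ξ : R4) : dl l k z (dl a b 0 ξ) = dl (l * a) (k * b) z ξ := by
  simp only [dl, zero_add, mul_assoc, smul_smul]

theorem sc_split (l k : ℝ) (v : R4) : sc l k v = (l * v.1) • e0 + k • sc 0 1 v := by
  simp [sc_ap, e0, Prod.ext_iff]

theorem sc_sc (l : ℝ) (v : R4) : sc l 1 (sc 0 1 v) = sc 0 1 v := by simp [sc_ap]

variable {n : ℕ} {l l' k c d m : ℝ} {f f' : R4 → ℝ} {z : R4}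

theorem jb_dl {V : Type} [NormedAddCommGroup V] [NormedSpace ℝ V] {u : R4 → V} {ξ : R4} {D : ℝ}
    (h : JB n u (dl l k z ξ) c) (hl : |l| ≤ D) (hk : |k| ≤ D) (hD : 1 ≤ D) :
    JB n (fun x => u (dl l k z x)) ξ (n ! * c * D ^ n) :=
  h.comp ((dl_jd l k z ξ).mono (sc_le hl hk)) hD

theorem cl_of (h : JB n f z c) : Cl n 1 1 f z (n ! * c) := by
  have := jb_dl (l := 1) (k := 1) (z := z) (ξ := 0) (D := 1) (by rwa [dl_zero]) (by simp) (by simp)
    le_rfl
  rwa [one_pow, mul_one] at this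

/-- Rescaling. -/
theorem cl_res {D : ℝ} (h : Cl n l' 1 f z c) (h0 : l' ≠ 0) (hl : |l / l'| ≤ D) (hk : |k| ≤ D)
    (hD : 1 ≤ D) : Cl n l k f z (n ! * c * D ^ n) := by
  have := jb_dl (u := fun ξ => f (dl l' 1 z ξ)) (z := 0) (ξ := 0) (by rwa [dl_zero]) hl hk hD
  simp only [dl_dl, mul_div_cancel₀ _ h0, one_mul] at this
  exact this

theorem cl_sa (h : Cl n l 1 f z c) (h0 : l ≠ 0) : SA f z := by
  have e : ∀ x, dl l 1 z (sc l⁻¹ 1 (x - z)) = x := fun x => by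
    simp [dl, sc_ap, mul_inv_cancel_left₀ h0, Prod.ext_iff]
  have s : SA (fun x => sc l⁻¹ 1 (x - z)) z :=
    SA.of ((sc l⁻¹ 1).contDiff.comp (contDiff_id.sub contDiff_const))
  have := SA.comp (u := fun ξ => f (dl l 1 z ξ)) (by simpa using h.sm) s
  simpa only [e] using this

theorem ev_dl (h : SA f z) (l k : ℝ) : ∀ᶠ ξ in 𝓝 0, SA f (dl l k z ξ) :=
  (dl_cd l k z).continuous.continuousAt.eventually (by rw [dl_zero]; exact h.ev)

theorem sa_dl (h : SA f z) (l k : ℝ) : SA (fun ξ => f (dl l k z ξ)) 0 :=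
  SA.comp (by rwa [dl_zero]) (SA.of (dl_cd l k z))

theorem fd_dl {ξ : R4} (h : SA f (dl l k z ξ)) :
    fderiv ℝ (fun x => f (dl l k z x)) ξ = (fderiv ℝ f (dl l k z ξ)).comp (sc l k) :=
  (h.diff.hasFDerivAt.comp ξ (dl_fd l k z ξ)).fderiv

theorem cl_val (h : Cl n l k f z c) : |f z| ≤ c := by
  simpa only [dl_zero, Real.norm_eq_abs] using h.zero

/-- All the derivatives gain. -/
theorem jd_gain (h : Cl n l' 1 f z c) (h' : Cl n l' 1 (dv e0 f) z d) (h1 : 1 ≤ l) (h2 : l ≤ l')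
    (k0 : 0 ≤ k) (k1 : k ≤ 1) :
    JD n (fun ξ => f (dl l k z ξ)) 0 (2 ^ n * n ! * (l * d + k * c)) := by
  have l0 : l' ≠ 0 := by linarith
  have q : |l / l'| ≤ 1 := by
    rw [abs_of_nonneg (div_nonneg (by linarith) (by linarith))]
    exact div_le_one_of_le₀ h2 (by linarith)
  have s := cl_sa h l0
  have c0 := h.nonneg
  have d0 := h'.nonneg
  cases n with
  | zero => exact JD.zero (sa_dl s l k)
  | succ n =>
    have a := ((cl_res (h'.ord n.le_succ) l0 q (abs_le.2 ⟨by linarith, k1⟩) le_rfl).smul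
      (JB.const (l • ContinuousLinearMap.fst ℝ ℝ (ℝ × ℝ × ℝ))))
    have b := (jb_dl (u := fderiv ℝ fun ξ => f (dl l' 1 z ξ)) (z := 0) (ξ := 0)
      (by rw [dl_zero]; exact h.jd.fderiv) q (abs_le.2 ⟨by linarith, k1⟩) le_rfl).ccomp
        (JB.const (k • sc 0 1))
    refine (JD.of_fderiv (sa_dl s l k) ((a.add b).congr ?_)).mono ?_
    · filter_upwards [ev_dl s l k] with ξ m
      have e : dl l' 1 z (dl (l / l') k 0 ξ) = dl l k z ξ := by
        rw [dl_dl, mul_div_cancel₀ _ l0, one_mul]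
      rw [fd_dl m, fd_dl (by rwa [e]), e]
      refine ContinuousLinearMap.ext fun v => ?_
      simp only [ContinuousLinearMap.comp_apply, add_apply,
        smul_apply, map_smul, sc_sc, sc_split l k v, map_add, dv, smul_eq_mul,
        ContinuousLinearMap.coe_fst']
      ring
    · have n1 : ‖l • ContinuousLinearMap.fst ℝ ℝ (ℝ × ℝ × ℝ)‖ ≤ l := by
        rw [norm_smul, Real.norm_of_nonneg (by linarith)]
        exact mul_le_of_le_one_right (by linarith) (ContinuousLinearMap.norm_fst_le ..)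
      have n2 : ‖k • sc 0 1‖ ≤ k := by
        rw [norm_smul, Real.norm_of_nonneg k0]
        exact mul_le_of_le_one_right k0 (sc_le (by simp) (by simp))
      have f1 : (2 : ℝ) ^ n * n ! ≤ 2 ^ (n + 1) * (n + 1)! := by
        gcongr
        exacts [one_le_two, n.le_succ, n.le_succ]
      calc _ ≤ 2 ^ n * (n ! * d * 1 ^ n) * l + 2 ^ n * (n ! * c * 1 ^ n) * k := by gcongr
        _ = 2 ^ n * n ! * (l * d + k * c) := by ring
        _ ≤ _ := by gcongr

theorem d2_dl (h : SA f z) (l k : ℝ) (v w : R4) :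
    fderiv ℝ (fderiv ℝ fun ξ => f (dl l k z ξ)) 0 v w =
      fderiv ℝ (fderiv ℝ f) z (sc l k v) (sc l k w) := by
  have e : (fderiv ℝ fun ξ => f (dl l k z ξ)) =ᶠ[𝓝 0]
      fun ξ => (fderiv ℝ f (dl l k z ξ)).comp (sc l k) := (ev_dl h l k).mono fun _ m => fd_dl m
  have a : HasFDerivAt (fderiv ℝ f) (fderiv ℝ (fderiv ℝ f) z) (dl l k z 0) := by
    rw [dl_zero]
    exact h.fderiv.diff.hasFDerivAt
  have b : HasFDerivAt (fun ξ => fderiv ℝ f (dl l k z ξ)) _ 0 := a.comp 0 (dl_fd l k z 0)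
  rw [e.fderiv_eq, (b.clm_comp (hasFDerivAt_const (sc l k) 0)).fderiv]
  simp

theorem dv_sa (h : SA f z) (v : R4) : SA (dv v f) z :=
  h.fderiv.clm (ContinuousLinearMap.apply ℝ ℝ v)

theorem fd_dv (h : SA f z) (v w : R4) :
    fderiv ℝ (dv v f) z w = fderiv ℝ (fderiv ℝ f) z w v := by
  have := (h.fderiv.diff.hasFDerivAt.clm_apply (hasFDerivAt_const v z)).fderiv
  unfold dv
  rw [this]
  simp

/-- Second order bounds when the scale T is larger than the gain l. -/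
theorem jb_two {T l0 A : ℝ} (h : Cl 2 l0 1 f z A) (h0 : l0 ≠ 0) (h' : Cl 1 l 1 (dv e0 f) z c)
    (h1 : 1 ≤ l) (h2 : l ≤ T) :
    JB 2 (fun ξ => f (dl T 1 z ξ)) 0 (A + T * c + T * (T / l) * c) := by
  have s := cl_sa h h0
  have c0 := h'.nonneg
  have A0 := h.nonneg
  have T0 : 0 ≤ T := by linarith
  have q : 0 ≤ T * (T / l) * c := by positivity
  have q' : 0 ≤ T * c := by positivity
  have p : ∀ v, ‖sc 0 1 v‖ ≤ ‖v‖ := fun v =>
    ((sc 0 1).le_of_opNorm_le (sc_le (D := 1) (by simp) (by simp)) v).trans (one_mul _).le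
  have v1 : ∀ v : R4, |v.1| ≤ ‖v‖ := fun v => norm_fst_le v
  have b1 : ∀ v, |fderiv ℝ (fderiv ℝ f) z (sc l 1 v) e0| ≤ c * ‖v‖ := fun v => by
    have := (fderiv ℝ (fun ξ => dv e0 f (dl l 1 z ξ)) 0).le_of_opNorm_le h'.jd.fderiv.zero v
    rwa [fd_dl (by rw [dl_zero]; exact dv_sa s e0), dl_zero, ContinuousLinearMap.comp_apply,
      fd_dv s] at this
  refine (JD.of_fderiv (sa_dl s T 1) ((JD.of_fderiv (sa_dl s T 1).fderiv
    ((JD.zero (sa_dl s T 1).fderiv.fderiv).jb ?_)).jb ?_)).jb ?_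
  · refine ContinuousLinearMap.opNorm_le_bound₂ _ (by positivity) fun v w => ?_
    have e : sc T 1 v = sc l 1 (sc (T / l) 1 v) := by
      simp [sc_ap, ← mul_assoc, mul_div_cancel₀ _ (by linarith : l ≠ 0)]
    have t1 : |fderiv ℝ (fderiv ℝ f) z (sc T 1 v) e0| ≤ c * (T / l * ‖v‖) := by
      have g : 1 ≤ T / l := (one_le_div (by linarith)).2 h2
      rw [e]
      exact (b1 _).trans (mul_le_mul_of_nonneg_left ((sc _ 1).le_of_opNorm_le
        (sc_le (abs_of_nonneg (by linarith)).le (by simpa using g)) v) c0)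
    have t2 : |fderiv ℝ (fderiv ℝ f) z e0 (sc 0 1 w)| ≤ c * ‖w‖ := by
      rw [((s.atn 2).isSymmSndFDerivAt (by simp)).eq, ← sc_sc l]
      exact (b1 _).trans (mul_le_mul_of_nonneg_left (p w) c0)
    have t3 : |fderiv ℝ (fderiv ℝ f) z (sc 0 1 v) (sc 0 1 w)| ≤ A * ‖v‖ * ‖w‖ := by
      rw [← sc_sc l0 v, ← sc_sc l0 w, ← d2_dl s]
      refine ((fderiv ℝ (fderiv ℝ fun ξ => f (dl l0 1 z ξ)) 0).le_opNorm₂ _ _).trans ?_
      have := h.jd.fderiv.jd.fderiv.zero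
      have := p v
      have := p w
      gcongr
    have e2 : fderiv ℝ (fderiv ℝ f) z (sc T 1 v) (sc T 1 w) =
        T * w.1 * fderiv ℝ (fderiv ℝ f) z (sc T 1 v) e0 +
          (T * v.1 * fderiv ℝ (fderiv ℝ f) z e0 (sc 0 1 w) +
            fderiv ℝ (fderiv ℝ f) z (sc 0 1 v) (sc 0 1 w)) := by
      rw [sc_split T 1 w, map_add, map_smul, one_smul]
      conv_lhs => rw [sc_split T 1 v]
      rw [sc_split T 1 v]
      simp
    rw [d2_dl s, e2]
    have := v1 v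
    have := v1 w
    calc _ ≤ T * ‖w‖ * (c * (T / l * ‖v‖)) + (T * ‖v‖ * (c * ‖w‖) + A * ‖v‖ * ‖w‖) := by
          refine (abs_add_le _ _).trans (add_le_add ?_ ((abs_add_le _ _).trans (add_le_add ?_ t3)))
          all_goals
            rw [abs_mul, abs_mul, abs_of_nonneg T0]
            gcongr
      _ = _ := by ring
  · refine ContinuousLinearMap.opNorm_le_bound _ (by positivity) fun v => ?_
    have t1 : |fderiv ℝ f z e0| ≤ c := cl_val (f := dv e0 f) h'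
    have t2 : |fderiv ℝ f z (sc 0 1 v)| ≤ A * ‖v‖ := by
      have := (fderiv ℝ (fun ξ => f (dl l0 1 z ξ)) 0).le_of_opNorm_le h.jd.fderiv.zero (sc 0 1 v)
      rw [fd_dl (by rwa [dl_zero]), dl_zero, ContinuousLinearMap.comp_apply, sc_sc] at this
      exact this.trans (mul_le_mul_of_nonneg_left (p v) A0)
    rw [fd_dl (by rwa [dl_zero]), dl_zero, ContinuousLinearMap.comp_apply, sc_split, map_add,
      map_smul, one_smul, smul_eq_mul]
    have := v1 v
    calc _ ≤ T * ‖v‖ * c + A * ‖v‖ := by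
          refine (abs_add_le _ _).trans (add_le_add ?_ t2)
          rw [abs_mul, abs_mul, abs_of_nonneg T0]
          gcongr
      _ ≤ _ := by nlinarith [norm_nonneg v]
  · rw [dl_zero]
    exact (cl_val h).trans (by linarith)

/-! ### Functions whose derivative in s has the rate m -/

structure Pc (n : ℕ) (l m : ℝ) (f : R4 → ℝ) (z : R4) (c : ℝ) : Prop where
  sa : SA f z
  v : Cl n l 1 f z c
  d : Cl n l 1 (dv e0 f) z (c * m)

theorem Pc.mk' (s : SA f z) (v : Cl n l 1 f z c) {u : R4 → ℝ}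
    (h : JB n (fun ξ => u (dl l 1 z ξ)) 0 d) (e : ∀ᶠ x in 𝓝 z, dv e0 f x = u x) (hd : d ≤ c * m) :
    Pc n l m f z c :=
  ⟨s, v, (h.congr ((dl_cd l 1 z).continuous.continuousAt.eventually
    (p := fun x => dv e0 f x = u x) (by rwa [dl_zero]))).mono hd⟩

theorem jb_mul {X : Type} [NormedAddCommGroup X] [NormedSpace ℝ X] {a b : X → ℝ} {x : X}
    (h : JB n a x c) (h' : JB n b x d) : JB n (fun w => a w * b w) x (2 ^ n * c * d) := h.smul h'

theorem jb_cmul {X : Type} [NormedAddCommGroup X] [NormedSpace ℝ X] {a : X → ℝ} {x : X} (t : ℝ)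
    (h : JB n a x c) : JB n (fun w => t * a w) x (|t| * c) :=
  (h.clm (ContinuousLinearMap.mul ℝ ℝ t)).mono
    (mul_le_mul_of_nonneg_right (ContinuousLinearMap.opNorm_mul_apply_le ℝ ℝ t) h.nonneg)

theorem Pc.cmul (t : ℝ) (h : Pc n l m f z c) : Pc n l m (fun x => t * f x) z (|t| * c) :=
  .mk' (h.sa.clm (ContinuousLinearMap.mul ℝ ℝ t)) (jb_cmul t h.v) (u := fun x => t * dv e0 f x)
    (jb_cmul t h.d) (h.sa.ev.mono fun x m => by simp [dv, fderiv_const_mul m.diff])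
    (mul_assoc ..).ge

theorem Pc.sub (h : Pc n l m f z c) (h' : Pc n l m f' z d) :
    Pc n l m (fun x => f x - f' x) z (c + d) :=
  .mk' (h.sa.sub h'.sa) (h.v.sub h'.v) (u := fun x => dv e0 f x - dv e0 f' x) (h.d.sub h'.d)
    ((h.sa.ev.and h'.sa.ev).mono fun x m => by simp [dv, fderiv_fun_sub m.1.diff m.2.diff])
    (add_mul ..).ge

theorem Pc.mul (h : Pc n l m f z c) (h' : Pc n l m f' z d) :
    Pc n l m (fun x => f x * f' x) z (2 * 2 ^ n * c * d) := by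
  have := (jb_mul h.v h'.v).nonneg
  refine .mk' (h.sa.bil (ContinuousLinearMap.mul ℝ ℝ) h'.sa) ((jb_mul h.v h'.v).mono (by linarith))
    (u := fun x => f x * dv e0 f' x + f' x * dv e0 f x) ((jb_mul h.v h'.d).add (jb_mul h'.v h.d))
    ((h.sa.ev.and h'.sa.ev).mono fun x m => ?_) (by ring_nf; exact le_rfl)
  simp [dv, fderiv_fun_mul m.1.diff m.2.diff]

theorem jb_inv {y C : ℝ} (hC : 1 ≤ C) (hy : C⁻¹ ≤ y) : JB n Inv.inv y (n ! * C ^ (n + 1)) := by
  have y0 : 0 < y := (inv_pos.2 (by linarith)).trans_le hy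
  refine ⟨(eventually_ne_nhds y0.ne').mono fun x m => contDiffAt_inv ℝ m, fun i m => ?_⟩
  have : y⁻¹ ≤ C := inv_le_of_inv_le₀ (by linarith) hy
  rw [norm_iteratedFDeriv_eq_norm_iteratedDeriv, iteratedDeriv_eq_iterate, iter_deriv_inv,
    show (-1 - i : ℤ) = -((i + 1 : ℕ) : ℤ) by push_cast; ring, zpow_neg, zpow_natCast, ← inv_pow]
  simp only [norm_mul, norm_pow, norm_neg, norm_one, one_pow, one_mul, Real.norm_natCast]
  rw [Real.norm_of_nonneg (inv_pos.2 y0).le]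
  calc _ ≤ (n ! : ℝ) * C ^ (i + 1) := by gcongr
    _ ≤ _ := by gcongr

theorem Pc.inv (n : ℕ) {C : ℝ} (hC : 1 ≤ C) : ∃ K, 0 ≤ K ∧ ∀ l m f z, Pc n l m f z C →
    C⁻¹ ≤ f z → Pc n l m (fun x => (f x)⁻¹) z K := by
  obtain ⟨I, hI⟩ : ∃ I : ℝ, I = n ! * (n ! * C ^ (n + 1)) * C ^ n := ⟨_, rfl⟩
  have I0 : 0 ≤ I := by rw [hI]; positivity
  refine ⟨I + 2 ^ n * (2 ^ n * I * I) * C, by positivity, fun l m f z h h0 => ?_⟩
  have y0 : 0 < f z := (inv_pos.2 (by linarith)).trans_le h0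
  have a : Cl n l 1 (fun x => (f x)⁻¹) z I :=
    hI ▸ JB.comp (u := Inv.inv) (jb_inv hC (by rwa [dl_zero])) h.v.jd hC
  have m0 : 0 ≤ m := by
    by_contra q
    nlinarith [h.d.nonneg]
  refine .mk' (SA.comp (u := Inv.inv) (jb_inv (n := 0) hC h0).sm h.sa)
    (a.mono (le_add_of_nonneg_right (by positivity)))
    (u := fun x => -1 * ((f x)⁻¹ * (f x)⁻¹ * dv e0 f x))
    (jb_cmul (-1) (jb_mul (jb_mul a a) h.d))
    ((h.sa.ev.and (h.sa.cont.eventually_ne y0.ne')).mono fun x q => ?_) ?_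
  · have := ((hasDerivAt_inv q.2).comp_hasFDerivAt x q.1.diff.hasFDerivAt).fderiv
    unfold dv
    rw [show (fun x => (f x)⁻¹) = (fun y => y⁻¹) ∘ f from rfl, this]
    simp [pow_two]
  · have : 0 ≤ I * m := by positivity
    rw [abs_neg, abs_one]
    nlinarith

theorem Pc.mono (h : Pc n l m f z c) (e : c ≤ d) (m0 : 0 ≤ m) : Pc n l m f z d :=
  ⟨h.sa, h.v.mono e, h.d.mono (mul_le_mul_of_nonneg_right e m0)⟩

/-- The class of a2. -/
theorem pc_a2 (n : ℕ) {C : ℝ} (hC : 1 ≤ C) : ∃ K, 0 ≤ K ∧ ∀ (C0 r m l rc : ℝ) (g : Tw) (z : R4),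
    Rp n C0 C r m l rc g z → l ≠ 0 → 0 < r → ∀ a b, Pc n l m (a2 g a b) z (K / r ^ 2) := by
  have p : (1 : ℝ) ≤ 2 ^ n := one_le_pow₀ one_le_two
  have hC' : C ≤ 2 * 2 ^ n * C * C + 2 * 2 ^ n * C * C := by
    nlinarith [mul_nonneg (sub_nonneg.2 p) (mul_self_nonneg C)]
  obtain ⟨K, K0, hK⟩ := Pc.inv n (hC.trans hC')
  refine ⟨2 * 2 ^ n * C * (2 * 2 ^ n * C * K), by positivity, fun C0 r m l rc g z h l0 r0 a b => ?_⟩
  have r2 : |(r ^ 2)⁻¹| = (r ^ 2)⁻¹ := abs_of_nonneg (by positivity)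
  have G : ∀ a b, Pc n l m (fun x => (r ^ 2)⁻¹ * gm g a b x) z C := fun a b => by
    have := Pc.cmul (r ^ 2)⁻¹ ⟨cl_sa (h.one.2.2.2 a b) l0, h.one.2.2.2 a b, h.dg a b⟩
    rwa [r2, mul_comm C, inv_mul_cancel_left₀ (by positivity)] at this
  have O : Pc n l m (Om g) z C := ⟨cl_sa h.one.1 l0, h.one.1, h.dO⟩
  have e : ∀ x, (r ^ 2)⁻¹ * gm g 0 0 x * ((r ^ 2)⁻¹ * gm g 1 1 x) -
      (r ^ 2)⁻¹ * gm g 0 1 x * ((r ^ 2)⁻¹ * gm g 0 1 x) = (r ^ 4)⁻¹ * dg g x := fun x => by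
    unfold dg
    field_simp
  have I := hK l m _ z (((G 0 0).mul (G 1 1)).sub ((G 0 1).mul (G 0 1))) (by
    rw [e]
    refine (inv_anti₀ (by linarith) hC').trans ?_
    rw [le_inv_mul_iff₀ (by positivity), mul_comm]
    exact h.pos.2.1)
  have m0 : 0 ≤ m := by
    by_contra q
    nlinarith [h.dO.nonneg]
  have F : ∀ (t : ℝ) (c d : Fin 2), |t| = 1 → (∀ x, gi g a b x = t * gm g c d x / dg g x) →
      Pc n l m (a2 g a b) z (2 * 2 ^ n * C * (2 * 2 ^ n * C * K) / r ^ 2) := fun t c d ht e' => by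
    have := (O.mul ((G c d).mul I)).cmul (t * (r ^ 2)⁻¹ / 2)
    simp only [e] at this
    have q : a2 g a b = fun x => t * (r ^ 2)⁻¹ / 2 *
        (Om g x * ((r ^ 2)⁻¹ * gm g c d x * ((r ^ 4)⁻¹ * dg g x)⁻¹)) := funext fun x => by
      rw [a2, e', mul_inv, inv_inv, div_eq_mul_inv _ (dg g x)]
      generalize (dg g x)⁻¹ = y
      field_simp
    rw [q]
    refine this.mono ?_ m0
    rw [abs_div, abs_mul, ht, r2, abs_two, one_mul, div_eq_mul_inv _ (r ^ 2)]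
    have : 0 ≤ 2 * 2 ^ n * C * (2 * 2 ^ n * C * K) * (r ^ 2)⁻¹ := by positivity
    linarith
  fin_cases a <;> fin_cases b
  exacts [F 1 1 1 abs_one fun x => by simp [gi], F (-1) 0 1 (by simp) fun x => by simp [gi],
    F (-1) 0 1 (by simp) fun x => by simp [gi], F 1 0 0 abs_one fun x => by simp [gi]]

end Vale.Agent.P354SG.Cq
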