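import Vale.Agent.P354SG.Hj

/-!
Scaling of the characteristics, bounds for the field, a priori bounds, first variation.
-/

open scoped ContDiff Topology Nat
open Set Filter

noncomputable section

namespace Vale.Agent.P354SG

open Vale.Agent.P354n (R4)
open Vale.Agent.P354YQ
open Vale.Agent.P354SA

section
variable {X F : Type} [NormedAddCommGroup X] [NormedSpace ℝ X] [NormedAddCommGroup F]
  [NormedSpace ℝ F] {f : X → F} {z a : X} {k : ℕ} {C D : ℝ}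

theorem jb_cl {G : Type} [NormedAddCommGroup G] [NormedSpace ℝ G] (L : F →L[ℝ] G) (hL : ‖L‖ ≤ 1)
    (h : JB k f z C) : JB k (fun w => L (f w)) z C :=
  (h.clm L).mono (mul_le_of_le_one_left h.nonneg hL)

theorem jb_dv (h : JB (k + 1) f z C) {w : X} (hw : ‖w‖ ≤ 1) : JB k (fun y => fderiv ℝ f y w) z C :=
  jb_cl (.apply ℝ F w) (ContinuousLinearMap.opNorm_le_bound _ zero_le_one fun L =>
    (L.le_opNorm w).trans (by nlinarith [norm_nonneg L])) h.jd.fderiv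

theorem jb_ip {f g : X → R2} (h : JB k f z C) (h' : JB k g z D) :
    JB k (fun w => ip (f w) (g w)) z (2 ^ k * C * D + 2 ^ k * C * D) :=
  ((jb_cl _ (ContinuousLinearMap.norm_fst_le ℝ ℝ ℝ) h).smul
    (jb_cl _ (ContinuousLinearMap.norm_fst_le ℝ ℝ ℝ) h')).add
    ((jb_cl _ (ContinuousLinearMap.norm_snd_le ℝ ℝ ℝ) h).smul
      (jb_cl _ (ContinuousLinearMap.norm_snd_le ℝ ℝ ℝ) h'))

theorem sa_tr (h : SA (fun y => f (y + a)) z) : SA f (z + a) :=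
  (SA.comp (f := fun y => y - a) (by simpa using h) (SA.of (by fun_prop))).congr
    (.of_forall fun y => by simp)

theorem jb_tr (h : JB k (fun y => f (y + a)) z C) : JB k f (z + a) C :=
  ⟨sa_tr h.sm, fun i m => by simpa only [iteratedFDeriv_comp_add_right] using h.le i m⟩

theorem gron {f f' : ℝ → F} {K ε δ : ℝ} (hK : 0 ≤ K) (hK' : K ≤ 1 / 2) (hε : 0 ≤ ε)
    (hf : ∀ s ∈ Icc (0 : ℝ) 1, HasDerivAt f (f' s) s)
    (h : ∀ s ∈ Icc (0 : ℝ) 1, ‖f' s‖ ≤ K * ‖f s‖ + ε) (h0 : ‖f 0‖ ≤ δ) :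
    ∀ s ∈ Icc (0 : ℝ) 1, ‖f s‖ ≤ 2 * (δ + ε) := fun s m => by
  have δ0 := (norm_nonneg _).trans h0
  have e : Real.exp (K * s) ≤ 2 := by
    have a : K * s ≤ 1 / 2 := (mul_le_of_le_one_right hK m.2).trans hK'
    have := Real.exp_bound_div_one_sub_of_interval (x := 1 / 2) (by norm_num) (by norm_num)
    exact (Real.exp_le_exp.2 a).trans (this.trans (by norm_num))
  refine (boot hK hε hf (fun s m _ => h s m) h0 (lt_add_one _) s m).trans ?_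
  rw [mul_comm]
  exact mul_le_mul e (add_le_add le_rfl (mul_le_of_le_one_right hε m.2))
    (add_nonneg δ0 (mul_nonneg hε m.1)) zero_le_two

end

theorem fld (k : ℕ) : ∃ A, 1 ≤ A ∧ ∀ (c D : ℝ) (H : W6 → ℝ) (q : W6), ‖q.2‖ ≤ 2 →
    JB (k + 1) H q D → JB k (fun y => c * Hs H y) q D → JB k (Gd c H) q (A * D) := by
  have p : (0 : ℝ) ≤ 2 ^ k := by positivity
  refine ⟨1 + 4 * 2 ^ k, by linarith, fun c D H q h2 h h' => ?_⟩
  have D0 := mul_nonneg p h.nonneg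
  have s : JB k (fun y : W6 => y.2) q 2 := ((JD.lin (.snd ℝ R4 R2)).mono
    ((ContinuousLinearMap.norm_snd_le ..).trans one_le_two)).jb h2
  have l : JB k (Hl H) q D := (jb_dv h (by simp)).prod (jb_dv h (by simp))
  have y : JB k (Hy H) q D := (jb_dv h (by simp [ey])).prod (jb_dv h (by simp [ey]))
  have t : JB k (Hs H) q D := jb_dv h (by simp [e0])
  have m : D ≤ (1 + 4 * 2 ^ k) * D := by linarith
  exact (((h.ord k.le_succ).sub (jb_ip s l)).mono (by linarith)).prod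
    ((((JB.const 0).sub l).congr (.of_forall fun _ => (zero_sub _).symm)).mono (by simpa using m)
      |>.prod (((y.add (t.smul s)).mono (by linarith)).prod (h'.mono m)))

/-! ### Scaling -/

def Bs (l θ c : ℝ) : E6 →L[ℝ] E6 := LinearMap.toContinuousLinearMap
  ⟨⟨fun X => (l⁻¹ * X.1, θ • X.2.1, (l * θ)⁻¹ • X.2.2.1, c * X.2.2.2),
    fun _ _ => by simp [mul_add]⟩, fun r _ => by simp [mul_left_comm, smul_comm r]⟩

theorem Bs_ap (l θ c : ℝ) (X : E6) :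
    Bs l θ c X = (l⁻¹ * X.1, θ • X.2.1, (l * θ)⁻¹ • X.2.2.1, c * X.2.2.2) := rfl

def axL (θ κ : ℝ) : R4 →L[ℝ] R4 := LinearMap.toContinuousLinearMap
  ⟨⟨ax θ κ, fun _ _ => by simp [ax, mul_add]⟩, fun r _ => by simp [ax, mul_left_comm, smul_comm r]⟩

def ML (l θ : ℝ) : W6 →L[ℝ] W6 := LinearMap.toContinuousLinearMap
  ⟨⟨fun q => ((l * q.1.1, θ⁻¹ • q.1.2), (l * θ) • q.2), fun _ _ => by simp [mul_add]⟩,
    fun r _ => by simp [mul_left_comm, smul_comm r]⟩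

variable {H : W6 → ℝ} {q : W6} {c l θ κ : ℝ} {Φ : R4 → E6} {x ξ z : R4} {k : ℕ}

theorem hd_eq : Hd H l θ z = fun q => (l * θ)⁻¹ * H ((z, 0) + ML l θ q) :=
  funext fun _ => congrArg (fun y => _ * H y) (Prod.ext rfl (zero_add _).symm)

theorem hd_sa (h : SA H ((z, 0) + ML l θ q)) : SA (Hd H l θ z) q := by
  rw [hd_eq]
  exact (h.comp (f := fun q => (z, 0) + ML l θ q) (SA.of (by fun_prop))).mono
    fun _ m => contDiffAt_const.mul m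

theorem hd_d (h : DifferentiableAt ℝ H ((z, 0) + ML l θ q)) (w : W6) :
    fderiv ℝ (Hd H l θ z) q w = (l * θ)⁻¹ * fderiv ℝ H ((z, 0) + ML l θ q) (ML l θ w) := by
  rw [hd_eq]
  exact congrArg (· w) ((h.hasFDerivAt.comp q ((ML l θ).hasFDerivAt.const_add _)).const_mul _).fderiv

theorem gd_sc (hl : l ≠ 0) (hθ : θ ≠ 0) (h : DifferentiableAt ℝ H ((z, 0) + ML l θ q)) :
    Gd c (Hd H l θ z) q = θ⁻¹ • Bs l θ c (Gd 1 H ((z, 0) + ML l θ q)) := by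
  have a : ML l θ (e0, 0) = l • (e0, 0) := by simp [ML, e0]
  have b : ∀ i, ML l θ (ey i, 0) = θ⁻¹ • (ey i, 0) := fun i => by fin_cases i <;> simp [ML, ey]
  have d : ∀ η, ML l θ (0, η) = (l * θ) • (0, η) := fun η => by simp [ML]
  have e : ((z, 0) + ML l θ q).2 = (l * θ) • q.2 := zero_add _
  simp only [Gd, Hs, Hy, Hl, hd_d h, a, b, d, map_smul, Bs_ap, e, ip]
  rw [hd_eq]
  simp only [Prod.smul_mk, Prod.neg_mk, smul_eq_mul, Prod.ext_iff, Prod.smul_fst,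
    Prod.smul_snd, Prod.fst_add, Prod.snd_add]
  refine ⟨?_, ⟨?_, ?_⟩, ⟨?_, ?_⟩, ?_⟩ <;> field_simp

theorem qq_sc (hl : l ≠ 0) (hθ : θ ≠ 0) (X : E6) :
    (((0, x.1, 0), 0) : W6) + ML l θ (qq (ξ, Bs l θ c X)) = qq (x + ax θ κ ξ, X) := by
  simp [ML, qq, Bs_ap, ax, smul_smul, hl, hθ, -mul_inv_rev]

/-- **Scaling of the characteristics.** -/
theorem scale (hl : l ≠ 0) (hθ : θ ≠ 0) (h : Sol e0 (Fd 1 H) Φ (x + ax θ κ ξ))
    (hH : SA H (qq (x + ax θ κ ξ, Φ (x + ax θ κ ξ)))) :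
    Sol e0 (Fd c (Hd H l θ (0, x.1, 0))) (fun ξ => Bs l θ c (Φ (x + ax θ κ ξ))) ξ := by
  have s : SA (fun ξ => x + axL θ κ ξ) ξ := SA.of (by fun_prop)
  have s' := SA.comp (f := fun ξ => x + axL θ κ ξ) h.sm s
  have t := (s.prod s').clm qL
  refine ⟨s'.clm _, ?_⟩
  filter_upwards [s.cont.eventually (h.sm.ev.and h.ode), t.cont.eventually hH.ev] with w a b
  have d := ((Bs l θ c).hasFDerivAt.comp w (a.1.diff.hasFDerivAt.comp w
    ((axL θ κ).hasFDerivAt.const_add x))).fderiv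
  have e : axL θ κ e0 = θ⁻¹ • e0 := show ax θ κ e0 = _ by simp [ax, e0]
  refine (congrArg (· e0) d).trans ?_
  rw [Fd, gd_sc hl hθ (by rw [qq_sc (κ := κ) hl hθ]; exact b.diff), qq_sc (κ := κ) hl hθ]
  simp only [ContinuousLinearMap.comp_apply, e, map_smul, a.2]
  rfl

theorem hd_tr (a : R4) :
    Hd H l θ (dl l θ⁻¹ z a) = fun q => Hd H l θ z (q + (a, 0)) := funext fun q => by
  simp only [Hd, dl, Prod.fst_add, Prod.snd_add, add_zero, mul_add, smul_add, add_assoc,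
    Prod.mk_add_mk, add_comm]

/-! ### Low orders -/

variable {K e1 e2 : ℝ} {p : R4 × E6}

/-- The bounds at the point z. -/
structure Lz (K e1 e2 : ℝ) (H : W6 → ℝ) (z : R4) : Prop where
  jb : ∀ l : R2, ‖l‖ ≤ 2 → JB 2 H (z, l) K
  hy : ∀ l : R2, ‖l‖ ≤ 2 → ‖Hy H (z, l)‖ ≤ e1 + K * ‖l‖
  hl : ∀ l η : R2, ‖l‖ ≤ 2 → ‖fderiv ℝ (Hl H) (z, l) (0, η)‖ ≤ e2 * ‖η‖

theorem lz_of (h : Lo K e1 e2 fun q => H (q + (z, 0))) : Lz K e1 e2 H z := by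
  have e : Hl (fun q => H (q + (z, 0))) = fun q => Hl H (q + (z, 0)) :=
    funext fun q => by simp only [Hl, fderiv_comp_add_right]
  exact ⟨fun l m => by simpa using jb_tr (h.jb l m),
    fun l m => by simpa [Hy, fderiv_comp_add_right] using h.hy l m,
    fun l η m => by simpa [e, fderiv_comp_add_right] using h.hl l η m⟩

/-- The weighted variation. -/
def Wm (M : ℝ) : E6 →L[ℝ] ℝ × R2 × R2 := LinearMap.toContinuousLinearMap
  ⟨⟨fun X => (X.1, X.2.1, M⁻¹ • X.2.2.1), fun _ _ => by simp⟩, fun r _ => by simp [smul_comm r]⟩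

theorem low (K : ℝ) (hK : 1 ≤ K) : ∃ N, K ≤ N ∧ ∀ (H : W6 → ℝ) (p : R4 × E6) (e1 e2 M : ℝ),
    ‖p.2.2.2.1‖ ≤ 2 → Lz K e1 e2 H (qq p).1 → ‖Fd 1 H p‖ ≤ N ∧ (1 ≤ M → e2 * M ≤ K →
      ∀ d : R4 × E6, d.1.1 = 0 → ‖Wm M (fderiv ℝ (Fd 1 H) p d)‖ ≤ 6 * N * ‖Wm M d.2‖) := by
  obtain ⟨A, hA, h⟩ := fld 1
  have KN : K ≤ A * K := le_mul_of_one_le_left (by linarith) hA
  refine ⟨A * K, KN, fun H p e1 e2 M h2 hz => ?_⟩
  have j := hz.jb _ h2
  have g := h 1 K H (qq p) h2 j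
    ((jb_dv j (w := (e0, 0)) (by simp [e0])).congr (.of_forall fun _ => one_mul _))
  refine ⟨g.zero, fun M1 eM d d0 => ?_⟩
  have b : ∀ d, ‖fderiv ℝ (Fd 1 H) p d‖ ≤ A * K * ‖qq d‖ := fun d =>
    (congrArg (fun L : _ →L[ℝ] _ => ‖L d‖) (g.sm.diff.hasFDerivAt.comp p qL.hasFDerivAt).fderiv
      ).trans_le ((fderiv ℝ (Gd 1 H) (qq p)).le_of_opNorm_le g.jd.fderiv.zero _)
  set n := ‖Wm M d.2‖
  have n0 : 0 ≤ n := norm_nonneg _
  have M0 : 0 < M := by linarith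
  have n1 : ‖d.2.1‖ ≤ n := norm_fst_le (Wm M d.2)
  have n2 : ‖d.2.2.1‖ ≤ n := (norm_fst_le (Wm M d.2).2).trans (norm_snd_le _)
  have sm : ∀ η : R2, ‖M⁻¹ • η‖ = M⁻¹ * ‖η‖ := fun η => by
    rw [norm_smul, Real.norm_of_nonneg (inv_pos.2 M0).le]
  have n3 : ‖d.2.2.2.1‖ ≤ M * n := by
    rw [← inv_mul_le_iff₀ M0, ← sm]
    exact (norm_snd_le (Wm M d.2).2).trans (norm_snd_le _)
  let d2 : R4 × E6 := (0, 0, 0, d.2.2.2.1, 0)
  have q2 : qq d2 = (0, d.2.2.2.1) := rfl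
  have b1 : ‖fderiv ℝ (Fd 1 H) p (d - d2)‖ ≤ A * K * n := (b _).trans
    (mul_le_mul_of_nonneg_left (by
      simpa [qq, d2, d0, n0] using And.intro n1 n2) (by linarith))
  have b2 := b d2
  obtain ⟨c1, c2⟩ := dF (c := 1) j.sm d2
  have c3 := hz.hl _ d.2.2.2.1 h2
  have c4 := dH (H := H) (q := qq p) 0 0 d.2.2.2.1
  have c5 := ip_le p.2.2.2.1 (fderiv ℝ (Hl H) (qq p) (0, d.2.2.2.1))
  rw [q2] at c1 c2 b2
  have c6 : ‖fderiv ℝ (Hl H) (qq p) (0, d.2.2.2.1)‖ ≤ K * n := by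
    rcases le_total 0 e2 with e | e
    · exact c3.trans ((mul_le_mul_of_nonneg_left n3 e).trans (by nlinarith))
    · exact c3.trans ((mul_nonpos_of_nonpos_of_nonneg e (norm_nonneg _)).trans (by positivity))
  have w1 : ∀ X : E6, ‖Wm M X‖ ≤ ‖X‖ := fun X => max_le (norm_fst_le X) (max_le
    ((norm_fst_le X.2).trans (norm_snd_le X)) ((sm _).trans_le ((mul_le_of_le_one_left
      (norm_nonneg _) (inv_le_one_of_one_le₀ M1)).trans ((norm_fst_le X.2.2).trans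
        ((norm_snd_le X.2).trans (norm_snd_le X))))))
  have Kn := mul_le_mul_of_nonneg_right KN n0
  have w2 : ‖Wm M (fderiv ℝ (Fd 1 H) p d2)‖ ≤ 5 * (A * K * n) := by
    have : 0 ≤ K * n := by positivity
    refine max_le ?_ (max_le ?_ ((sm _).trans_le ?_))
    · change |(fderiv ℝ (Fd 1 H) p d2).1| ≤ _
      have c7 : fderiv ℝ H (qq p) (0, d.2.2.2.1) = ip d2.2.2.2.1 (Hl H (qq p)) :=
        c4.trans (by simp [ip, d2])
      rw [c2, c7, sub_self, zero_sub, abs_neg]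
      refine c5.trans ?_
      nlinarith [norm_nonneg (fderiv ℝ (Hl H) (qq p) (0, d.2.2.2.1))]
    · change ‖(fderiv ℝ (Fd 1 H) p d2).2.1‖ ≤ _
      rw [c1, norm_neg]
      linarith
    · rw [inv_mul_le_iff₀ M0]
      refine ((norm_fst_le _).trans ((norm_snd_le _).trans (norm_snd_le _))).trans (b2.trans ?_)
      rw [Prod.norm_mk, norm_zero, max_eq_right (norm_nonneg _)]
      have : 0 ≤ A * K := by linarith
      nlinarith [mul_le_mul_of_nonneg_left n3 this]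
  rw [← sub_add_cancel d d2, map_add, map_add]
  exact (norm_add_le _ _).trans (by linarith [w1 (fderiv ℝ (Fd 1 H) p (d - d2))])

variable {τ : R4 → ℝ} {N M : ℝ}

theorem trav {F : Type} [NormedAddCommGroup F] [NormedSpace ℝ F] {f f' : ℝ → F} {ε ρ : ℝ}
    (hε : 0 ≤ ε) (hρ : ε < ρ) (hf : ∀ s ∈ Icc (0 : ℝ) 1, HasDerivAt f (f' s) s)
    (h : ∀ s ∈ Icc (0 : ℝ) 1, ‖f s - f 0‖ ≤ ρ → ‖f' s‖ ≤ ε) :
    ∀ s ∈ Icc (0 : ℝ) 1, ‖f s - f 0‖ ≤ ε := fun s m =>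
  (boot (K := 0) (δ := 0) le_rfl hε (fun s m => (hf s m).sub_const (f 0))
    (fun s m a => by simpa using h s m a) (by simp) (by simpa using hρ) s m).trans
    (by simpa using mul_le_of_le_one_right hε m.2)

/-- The point of the characteristic at the time r, and the value there. -/
def pr (τ : R4 → ℝ) (Φ : R4 → E6) (x : R4) (r : ℝ) : R4 × E6 :=
  (pt e0 τ (1 - r) x, Φ (pt e0 τ (1 - r) x))

theorem low2 (K : ℝ) (hK : 1 ≤ K) : ∃ N, K ≤ N ∧ ∀ (H : W6 → ℝ) (τ : R4 → ℝ) (Φ : R4 → E6) (x : R4)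
    (e1 e2 : ℝ), |τ x| * N ≤ 1 / 200 → 0 ≤ e1 → ‖(pr τ Φ x 0).2.2.2.1‖ ≤ 1 →
    (∀ r ∈ Icc (0 : ℝ) 1, Sol e0 (Fd 1 H) Φ (pr τ Φ x r).1 ∧
      (‖(pr τ Φ x r).2 - (pr τ Φ x 0).2‖ ≤ 1 / 100 → Lz K e1 e2 H (qq (pr τ Φ x r)).1)) →
    (∀ r ∈ Icc (0 : ℝ) 1, ‖(pr τ Φ x r).2 - (pr τ Φ x 0).2‖ ≤ 1 / 200 ∧
      ‖(pr τ Φ x r).2.2.2.1‖ ≤ 2 * (‖(pr τ Φ x 0).2.2.2.1‖ + |τ x| * e1)) ∧
    ∀ (M : ℝ) (η : R2), 1 ≤ M → e2 * M ≤ K →
      ‖Wm M (fderiv ℝ Φ (pr τ Φ x 0).1 (0, 0, η))‖ ≤ 2 * ‖η‖ →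
      ‖(fderiv ℝ Φ x (0, 0, η)).2.1 - (fderiv ℝ Φ (pr τ Φ x 0).1 (0, 0, η)).2.1‖ ≤ ‖η‖ / 2 := by
  obtain ⟨N, KN, hN⟩ := low K hK
  refine ⟨N, KN, fun H τ Φ x e1 e2 hτ he h0 h => ?_⟩
  have t0 := abs_nonneg (τ x)
  have N0 : 0 ≤ N := by linarith
  have d : ∀ r ∈ Icc (0 : ℝ) 1, HasDerivAt (fun r => (pr τ Φ x r).2)
      (τ x • Fd 1 H (pr τ Φ x r)) r := fun r m => sol_line (h r m).1
  have l3 : ∀ X : E6, ‖X.2.2.1‖ ≤ ‖X‖ := fun X =>
    (norm_fst_le X.2.2).trans ((norm_snd_le X.2).trans (norm_snd_le X))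
  have l2 : ∀ r, ‖(pr τ Φ x r).2 - (pr τ Φ x 0).2‖ ≤ 1 / 100 → ‖(pr τ Φ x r).2.2.2.1‖ ≤ 2 :=
    fun r a => (norm_le_norm_add_norm_sub' _ (pr τ Φ x 0).2.2.2.1).trans
      (by linarith [show ‖(pr τ Φ x r).2.2.2.1 - (pr τ Φ x 0).2.2.2.1‖ ≤ _ from (l3 _).trans a])
  have a := trav (ε := 1 / 200) (ρ := 1 / 100) (by norm_num) (by norm_num) d fun r m b => by
    rw [norm_smul]
    exact (mul_le_mul_of_nonneg_left (hN H _ e1 e2 1 (l2 r b) ((h r m).2 b)).1 t0).trans hτ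
  have a' := fun r m => (a r m).trans (show (1 / 200 : ℝ) ≤ 1 / 100 by norm_num)
  have z := fun r m => (h r m).2 (a' r m)
  have n := fun M r m => hN H _ e1 e2 M (l2 r (a' r m)) (z r m)
  refine ⟨fun r m => ⟨a r m, gron (K := |τ x| * (2 * N)) (by positivity) (by linarith)
    (mul_nonneg t0 he) (fun r m => (d r m).snd.snd.fst) (fun r m => ?_) le_rfl r m⟩,
    fun M η M1 eM hη => ?_⟩
  · have b := (z r m).hy _ (l2 r (a' r m))
    have c : ‖1 * Hs H (qq (pr τ Φ x r))‖ ≤ N := ((norm_snd_le (Fd 1 H (pr τ Φ x r)).2.2).trans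
      ((norm_snd_le _).trans (norm_snd_le _))).trans (n 1 r m).1
    change ‖τ x • (Hy H (qq (pr τ Φ x r)) + Hs H (qq (pr τ Φ x r)) • (pr τ Φ x r).2.2.2.1)‖ ≤ _
    rw [norm_smul, mul_assoc, ← mul_add]
    refine mul_le_mul_of_nonneg_left ((norm_add_le_of_le b (norm_smul_le _ _)).trans ?_) t0
    rw [one_mul] at c
    nlinarith [norm_nonneg (pr τ Φ x r).2.2.2.1]
  have d' : ∀ r ∈ Icc (0 : ℝ) 1, HasDerivAt (fun r => Wm M (fderiv ℝ Φ (pr τ Φ x r).1 (0, 0, η)))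
      (τ x • Wm M (fderiv ℝ (Fd 1 H) (pr τ Φ x r)
        ((0, 0, η), fderiv ℝ Φ (pr τ Φ x r).1 (0, 0, η)))) r := fun r m => by
    have := line (sa_dv (h r m).1.sm (0, 0, η)).diff
    rw [var_ode (x := pt e0 τ (1 - r) x) (h r m).1 (sa_Fd ((z r m).jb _ (l2 r (a' r m))).sm).diff] at this
    exact map_smul (Wm M) _ _ ▸ (Wm M).hasFDerivAt.comp_hasDerivAt r this
  have b := fun r m => (norm_smul_le (τ x) _).trans (mul_le_mul_of_nonneg_left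
    ((n M r m).2 M1 eM ((0, 0, η), fderiv ℝ Φ (pr τ Φ x r).1 (0, 0, η)) rfl) t0)
  have η0 := norm_nonneg η
  have c := gron (K := |τ x| * (6 * N)) (ε := 0) (by positivity) (by linarith) le_rfl d'
    (fun r m => (b r m).trans (by rw [add_zero, mul_assoc (|τ x|)]; rfl)) hη
  have e := trav (ε := ‖η‖ / 2) (by positivity) (lt_add_one _) d' (fun r m _ => (b r m).trans (by
    have := c r m
    have := norm_nonneg (Wm M (fderiv ℝ Φ (pr τ Φ x r).1 (0, 0, η)))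
    change |τ x| * _ ≤ _
    nlinarith)) 1 ⟨zero_le_one, le_rfl⟩
  have f := ((norm_fst_le _).trans (norm_snd_le _)).trans e
  rwa [show (pr τ Φ x 1).1 = x by simp [pr, pt]] at f

end Vale.Agent.P354SG
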