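import Vale.Agent.P354SG.Cb

/-!
CO1 and CO2: bounds for the scaled Hamiltonian.
-/

open scoped ContDiff Topology Nat
open Set Filter

noncomputable section

namespace Vale.Agent.P354SG

open Vale.Agent.P354n (R4)
open Vale.Agent.P354XE (Tw)
open Vale.Agent.P354YQ (SA JB JD)
open Vale.Agent.P354SA

namespace Cq

/-- A function which is quadratic in the last variables. -/
def Hq (A0 : R4 → ℝ) (A1 : Fin 2 → R4 → ℝ) (A2 : Fin 2 → Fin 2 → R4 → ℝ) (q : W6) : ℝ :=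
  A0 q.1 + ∑ a, A1 a q.1 * lc a q.2 + ∑ a, ∑ b, A2 a b q.1 * lc a q.2 * lc b q.2

def lcL : Fin 2 → W6 →L[ℝ] ℝ :=
  ![(ContinuousLinearMap.fst ℝ ℝ ℝ).comp (ContinuousLinearMap.snd ℝ R4 R2),
    (ContinuousLinearMap.snd ℝ ℝ ℝ).comp (ContinuousLinearMap.snd ℝ R4 R2)]

theorem lcL_ap (a : Fin 2) (q : W6) : lcL a q = lc a q.2 := by fin_cases a <;> rfl

theorem lc_le (a : Fin 2) (l : R2) : |lc a l| ≤ ‖l‖ := by
  fin_cases a
  exacts [norm_fst_le l, norm_snd_le l]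

variable {n : ℕ} {c : ℝ} {A0 : R4 → ℝ} {A1 : Fin 2 → R4 → ℝ} {A2 : Fin 2 → Fin 2 → R4 → ℝ}
  {x : R4} {η : R2}

theorem jb_lc (a : Fin 2) (h : ‖η‖ ≤ 2) : JB n (fun q : W6 => lc a q.2) (x, η) 2 := by
  have e : ‖lcL a‖ ≤ 2 := ContinuousLinearMap.opNorm_le_bound _ zero_le_two fun q => by
    rw [lcL_ap]
    exact ((lc_le a _).trans (norm_snd_le q)).trans (by linarith [norm_nonneg q])
  exact (((JD.lin (lcL a)).mono e).jb (by rw [lcL_ap]; exact (lc_le a _).trans h)).congr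
    (.of_forall fun q => (lcL_ap a q).symm)

theorem jb_fst {A : R4 → ℝ} (h : JB n A x c) : JB n (fun q : W6 => A q.1) (x, η) (n ! * c) := by
  have := JB.comp (u := A) (f := fun q : W6 => q.1) (z := (x, η)) h
    ((JD.lin (ContinuousLinearMap.fst ℝ R4 R2)).mono (ContinuousLinearMap.norm_fst_le ..)) le_rfl
  rwa [one_pow, mul_one] at this

def Nq (n : ℕ) : ℝ := n ! * (1 + 4 * 2 ^ n + 16 * (2 ^ n) ^ 2)

theorem Nq_ge (n : ℕ) : 1 ≤ Nq n :=
  one_le_mul_of_one_le_of_one_le (Nat.one_le_cast.2 n.factorial_pos)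
    (by rw [add_assoc]; exact le_add_of_nonneg_right (by positivity))

theorem hq_jb (h0 : JB n A0 x c) (h1 : ∀ a, JB n (A1 a) x c) (h2 : ∀ a b, JB n (A2 a b) x c)
    (h : ‖η‖ ≤ 2) : JB n (Hq A0 A1 A2) (x, η) (Nq n * c) := by
  have p1 := fun a => jb_mul (jb_fst (η := η) (h1 a)) (jb_lc a h)
  have p2 := fun a b => jb_mul (jb_mul (jb_fst (η := η) (h2 a b)) (jb_lc a h)) (jb_lc b h)
  refine ((((jb_fst h0).add ((p1 0).add (p1 1))).add
    (((p2 0 0).add (p2 0 1)).add ((p2 1 0).add (p2 1 1)))).congr (.of_forall fun q => ?_)).mono ?_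
  · simp only [Hq, Fin.sum_univ_two]
  · unfold Nq
    ring_nf
    exact le_rfl

theorem hq_d {q : W6} (h0 : SA A0 q.1) (h1 : ∀ a, SA (A1 a) q.1) (h2 : ∀ a b, SA (A2 a b) q.1)
    (v : R4) (ζ : R2) : fderiv ℝ (Hq A0 A1 A2) q (v, ζ) =
      Hq (dv v A0) (fun a => dv v (A1 a)) (fun a b => dv v (A2 a b)) q +
        Hq (fun x => ∑ a, A1 a x * lc a ζ) (fun b x => ∑ a, (A2 a b x + A2 b a x) * lc a ζ) 0 q := by
  have d : ∀ {A : R4 → ℝ}, SA A q.1 → HasFDerivAt (fun q : W6 => A q.1)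
      ((fderiv ℝ A q.1).comp (ContinuousLinearMap.fst ℝ R4 R2)) q := fun h =>
    h.diff.hasFDerivAt.comp q hasFDerivAt_fst
  have l : ∀ a, HasFDerivAt (fun q : W6 => lc a q.2) (lcL a) q := fun a => by
    simpa only [← lcL_ap] using (lcL a).hasFDerivAt
  have p1 := fun a => (d (h1 a)).fun_mul (l a)
  have p2 := fun a b => ((d (h2 a b)).fun_mul (l a)).fun_mul (l b)
  have := ((d h0).fun_add ((p1 0).fun_add (p1 1))).fun_add
    (((p2 0 0).fun_add (p2 0 1)).fun_add ((p2 1 0).fun_add (p2 1 1)))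
  have e : Hq A0 A1 A2 = _ := funext fun q => by simp only [Hq, Fin.sum_univ_two]; rfl
  rw [e, this.fderiv]
  simp [Hq, dv, lcL_ap]
  ring

theorem hq_ev (h0 : SA A0 x) (h1 : ∀ a, SA (A1 a) x) (h2 : ∀ a b, SA (A2 a b) x) :
    ∀ᶠ q : W6 in 𝓝 (x, η), SA A0 q.1 ∧ (∀ a, SA (A1 a) q.1) ∧ ∀ a b, SA (A2 a b) q.1 :=
  continuous_fst.continuousAt.eventually (p := fun y => SA A0 y ∧ (∀ a, SA (A1 a) y) ∧
    ∀ a b, SA (A2 a b) y) (h0.ev.and ((eventually_all.2 fun a => (h1 a).ev).and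
      (eventually_all.2 fun a => eventually_all.2 fun b => (h2 a b).ev)))

theorem hq_v {q : W6} (h0 : SA A0 q.1) (h1 : ∀ a, SA (A1 a) q.1) (h2 : ∀ a b, SA (A2 a b) q.1)
    (v : R4) : fderiv ℝ (Hq A0 A1 A2) q (v, 0) =
      Hq (dv v A0) (fun a => dv v (A1 a)) (fun a b => dv v (A2 a b)) q := by
  rw [hq_d h0 h1 h2]
  simp [Hq, lc]

theorem hq_z {q : W6} (h0 : SA A0 q.1) (h1 : ∀ a, SA (A1 a) q.1) (h2 : ∀ a b, SA (A2 a b) q.1)
    (ζ : R2) : fderiv ℝ (Hq A0 A1 A2) q (0, ζ) =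
      Hq (fun x => ∑ a, A1 a x * lc a ζ) (fun b x => ∑ a, (A2 a b x + A2 b a x) * lc a ζ) 0 q := by
  rw [hq_d h0 h1 h2]
  simp [Hq, dv]

theorem sa_sum {B : Fin 2 → R4 → ℝ} (h : ∀ a, SA (B a) x) (t : Fin 2 → ℝ) :
    SA (fun y => ∑ a, B a y * t a) x :=
  (eventually_all.2 h).mono fun _ m => ContDiffAt.sum fun a _ => (m a).mul contDiffAt_const

theorem ey_le (a : Fin 2) : ‖ey a‖ ≤ 1 := by fin_cases a <;> simp [ey, Prod.norm_def]

theorem dv_le {f : R4 → ℝ} (h : JB 2 f x c) (a : Fin 2) : |dv (ey a) f x| ≤ c :=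
  ((fderiv ℝ f x).le_of_opNorm_le h.jd.fderiv.zero _).trans
    (mul_le_of_le_one_right h.nonneg (ey_le a))

theorem lo_of {K e1 e2 e1' e2' : ℝ} (h0 : JB 2 A0 0 c) (h1 : ∀ a, JB 2 (A1 a) 0 c)
    (h2 : ∀ a b, JB 2 (A2 a b) 0 c) (d0 : ∀ a, |dv (ey a) A0 0| ≤ e1) (d2 : ∀ a b, |A2 a b 0| ≤ e2)
    (hK : 546 * c ≤ K) (a1 : e1 ≤ e1') (a2 : 8 * e2 ≤ e2') : Lo K e1' e2' (Hq A0 A1 A2) := by
  have c0 := h0.nonneg
  have s1 := fun a => (h1 a).sm
  have s2 := fun a b => (h2 a b).sm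
  refine ⟨fun l hl => (hq_jb h0 h1 h2 hl).mono (le_of_eq_of_le (by norm_num [Nq]) hK),
    fun l hl => ?_, fun l η hl => ?_⟩
  · have l0 := norm_nonneg l
    have : ∀ a, |fderiv ℝ (Hq A0 A1 A2) (0, l) (ey a, 0)| ≤ e1' + K * ‖l‖ := fun a => by
      rw [hq_v h0.sm s1 s2]
      have p1 : ∀ b, |dv (ey a) (A1 b) 0 * lc b l| ≤ c * ‖l‖ := fun b => by
        rw [abs_mul]
        exact mul_le_mul (dv_le (h1 b) a) (lc_le b l) (abs_nonneg _) c0
      have p2 : ∀ b d, |dv (ey a) (A2 b d) 0 * lc b l * lc d l| ≤ c * ‖l‖ * 2 := fun b d => by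
        rw [abs_mul, abs_mul]
        exact mul_le_mul (mul_le_mul (dv_le (h2 b d) a) (lc_le b l) (abs_nonneg _) c0)
          ((lc_le d l).trans hl) (abs_nonneg _) (by positivity)
      have q := mul_le_mul_of_nonneg_right hK l0
      have q' := mul_nonneg c0 l0
      simp only [Hq, Fin.sum_univ_two]
      rw [abs_le]
      constructor <;> linarith [abs_le.1 (d0 a), abs_le.1 (p1 0), abs_le.1 (p1 1),
        abs_le.1 (p2 0 0), abs_le.1 (p2 0 1), abs_le.1 (p2 1 0), abs_le.1 (p2 1 1)]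
    exact max_le (this 0) (this 1)
  · have key : ∀ ζ : R2, ‖ζ‖ ≤ 1 → DifferentiableAt ℝ (fun q => fderiv ℝ (Hq A0 A1 A2) q (0, ζ))
        (0, l) ∧ |fderiv ℝ (fun q => fderiv ℝ (Hq A0 A1 A2) q (0, ζ)) (0, l) (0, η)| ≤
          e2' * ‖η‖ := fun ζ hζ => by
      refine ⟨((hq_jb h0 h1 h2 hl).sm.fderiv.clm (ContinuousLinearMap.apply ℝ ℝ (0, ζ))).diff, ?_⟩
      rw [EventuallyEq.fderiv_eq ((hq_ev h0.sm s1 s2).mono fun q m => hq_z m.1 m.2.1 m.2.2 ζ),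
        hq_z (A2 := 0) (sa_sum s1 _) (fun b => sa_sum (fun a => (s2 a b).add (s2 b a)) _)
          fun _ _ => SA.of contDiff_const]
      have e0 : 0 ≤ e2 := (abs_nonneg _).trans (d2 0 0)
      have p : ∀ a b u v, |A2 a b 0 * lc u ζ * lc v η| ≤ e2 * ‖η‖ := fun a b u v => by
        rw [abs_mul, abs_mul]
        exact mul_le_mul ((mul_le_mul (d2 a b) ((lc_le u ζ).trans hζ) (abs_nonneg _) e0).trans
          (mul_one _).le) (lc_le v η) (abs_nonneg _) e0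
      have q := mul_le_mul_of_nonneg_right a2 (norm_nonneg η)
      simp only [Hq, Fin.sum_univ_two, Pi.zero_apply, add_mul, add_zero, zero_mul]
      rw [abs_le]
      constructor <;> linarith [abs_le.1 (p 0 0 0 0), abs_le.1 (p 1 0 1 0), abs_le.1 (p 0 1 1 0),
        abs_le.1 (p 0 1 0 1), abs_le.1 (p 1 0 0 1), abs_le.1 (p 1 1 1 1)]
    have k1 := key (1, 0) (by simp [Prod.norm_def])
    have k2 := key (0, 1) (by simp [Prod.norm_def])
    unfold Hl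
    rw [k1.1.fderiv_prodMk k2.1]
    exact max_le k1.2 k2.2

theorem hd_eq (g : Tw) {l θ : ℝ} (h : l * θ ≠ 0) (z : R4) : Hd (Hm g) l θ z =
    Hq (fun ξ => (l * θ)⁻¹ * a0 g (dl l θ⁻¹ z ξ)) (fun a ξ => a1 g a (dl l θ⁻¹ z ξ))
      fun a b ξ => l * θ * a2 g a b (dl l θ⁻¹ z ξ) := by
  funext q
  simp only [Hd, Hm, Hq]
  generalize l * θ = s at h ⊢
  generalize dl l θ⁻¹ z q.1 = y
  simp [lc]
  field_simp

theorem dv_dl {f : R4 → ℝ} {l k : ℝ} {z ξ : R4} (h : SA f (dl l k z ξ)) (t : ℝ) :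
    dv e0 (fun ξ => t * f (dl l k z ξ)) ξ = t * l * dv e0 f (dl l k z ξ) := by
  have e : sc l k e0 = l • e0 := by simp [sc_ap, e0]
  have d : DifferentiableAt ℝ (fun ξ => f (dl l k z ξ)) ξ :=
    h.diff.comp ξ (dl_fd l k z ξ).differentiableAt
  simp [dv, fderiv_const_mul d, fd_dl h, e, mul_assoc]

theorem sa_cm {f : R4 → ℝ} (t : ℝ) (h : SA f x) : SA (fun y => t * f y) x :=
  h.clm (ContinuousLinearMap.mul ℝ ℝ t)

end Cq

open Cq

/-- **CO2**. -/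
theorem co2 : CO2 := fun n C => by
  by_cases hC : 1 ≤ C
  swap
  · exact ⟨1, le_rfl, fun _ _ _ _ _ _ _ _ _ _ _ h => absurd h hC⟩
  obtain ⟨K, K0, hK⟩ := pc_a2 n hC
  obtain ⟨c, hc⟩ : ∃ c : ℝ, c = 2 ^ n * n ! * (C ^ 3 + C) + n ! * (C ^ 2 * K) + K := ⟨_, rfl⟩
  have f1 : (1 : ℝ) ≤ n ! := Nat.one_le_cast.2 n.factorial_pos
  have p1 : (1 : ℝ) ≤ 2 ^ n := one_le_pow₀ one_le_two
  have C1 : C ≤ C ^ 2 := by nlinarith
  have C2 : C ^ 2 ≤ C ^ 3 := by nlinarith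
  have x1 : n ! * (C ^ 3 + C) ≤ 2 ^ n * n ! * (C ^ 3 + C) := by
    rw [mul_assoc]
    exact le_mul_of_one_le_left (by positivity) p1
  have x2 : 0 ≤ n ! * (C ^ 2 * K) := by positivity
  have x3 : 0 ≤ 2 ^ n * n ! * (C ^ 3 + C) := by positivity
  have y1 : n ! * C ^ 2 ≤ c := by nlinarith
  have y2 : n ! * C ≤ c := by nlinarith
  have y3 : C ≤ c := by nlinarith
  have N := Nq_ge n
  have cN : c ≤ Nq n * c := le_mul_of_one_le_left (by linarith) N
  refine ⟨Nq n * c, by linarith, fun C0 r m l l' θ rc g z η h _ r1 mC l1 ll θ1 lr hη => ?_⟩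
  have l0 : l' ≠ 0 := by linarith
  have θ0 : 0 < θ := by linarith
  have t0 : 0 < θ⁻¹ := inv_pos.2 θ0
  have t1 : θ⁻¹ ≤ 1 := inv_le_one_of_one_le₀ θ1
  have m0 : 0 ≤ m := by
    by_contra q
    nlinarith [h.dO.nonneg]
  have s0 : 0 < l * θ := by positivity
  have res : ∀ {f : R4 → ℝ} {d : ℝ}, Cl n l' 1 f z d → Cl n l θ⁻¹ f z (n ! * d) := fun h => by
    have := cl_res (l := l) (k := θ⁻¹) (D := 1) h l0 (by
      rw [abs_of_nonneg (div_nonneg (by linarith) (by linarith))]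
      exact div_le_one_of_le₀ ll (by linarith)) (by rwa [abs_of_pos t0]) le_rfl
    rwa [one_pow, mul_one] at this
  have u : l / r ≤ C * θ⁻¹ := by
    rw [← div_eq_mul_inv, div_le_div_iff₀ (by linarith) θ0]
    exact lr
  have u0 : 0 ≤ l / r := by positivity
  have u2 : l * (l * θ) / r ^ 2 ≤ C ^ 2 * θ⁻¹ := by
    have : l * (l * θ) / r ^ 2 = (l / r) ^ 2 * θ := by ring
    rw [this]
    calc _ ≤ (C * θ⁻¹) ^ 2 * θ := by gcongr
      _ = _ := by field_simp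
  have A2 := hK C0 r m l' rc g z h l0 (by linarith)
  have s0' := cl_sa h.one.2.1 l0
  have s1 := fun a => cl_sa (h.one.2.2.1 a) l0
  refine ⟨?_, ?_, max_le ((cl_val (h.one.2.2.1 0)).trans (y3.trans cN))
    ((cl_val (h.one.2.2.1 1)).trans (y3.trans cN)), fun a b => (A2 a b).v.mono ?_⟩
  · have e : (fun q => Hd (Hm g) l θ z q - ip (a1 g 0 z, a1 g 1 z) q.2) =
        Hq (fun ξ => (l * θ)⁻¹ * a0 g (dl l θ⁻¹ z ξ))
          (fun a ξ => a1 g a (dl l θ⁻¹ z ξ) - a1 g a (dl l θ⁻¹ z 0))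
          fun a b ξ => l * θ * a2 g a b (dl l θ⁻¹ z ξ) := by
      funext q
      rw [hd_eq g s0.ne']
      simp [Hq, ip, lc, dl_zero]
      ring
    rw [e, div_eq_mul_inv, mul_assoc]
    refine hq_jb ((jb_cmul _ (res h.one.2.1)).mono ?_) (fun a => JD.sub_const
      ((jd_gain (h.one.2.2.1 a) (h.d1 a) l1 ll t0.le t1).mono ?_)
        (mul_nonneg (by linarith) t0.le))
      (fun a b => (jb_cmul _ (res (A2 a b).v)).mono ?_) hη
    · rw [abs_of_pos (inv_pos.2 s0), mul_inv, mul_comm c]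
      have : l⁻¹ ≤ 1 := inv_le_one_of_one_le₀ l1
      calc _ ≤ 1 * θ⁻¹ * c := by gcongr
        _ = _ := by ring
    · calc _ = 2 ^ n * n ! * (l / r * (C * m) + θ⁻¹ * C) := by ring
        _ ≤ 2 ^ n * n ! * (C * θ⁻¹ * (C * C) + θ⁻¹ * C) := by gcongr
        _ = 2 ^ n * n ! * (C ^ 3 + C) * θ⁻¹ := by ring
        _ ≤ _ := by gcongr; linarith
    · rw [abs_of_pos s0]
      calc _ = n ! * (1 * (l * θ) / r ^ 2 * K) := by ring
        _ ≤ n ! * (l * (l * θ) / r ^ 2 * K) := by gcongr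
        _ ≤ n ! * (C ^ 2 * θ⁻¹ * K) := by gcongr
        _ = n ! * (C ^ 2 * K) * θ⁻¹ := by ring
        _ ≤ _ := by gcongr; linarith
  · have e : Hs (Hd (Hm g) l θ z) =ᶠ[𝓝 (0, η)]
        Hq (fun ξ => (l * θ)⁻¹ * l * dv e0 (a0 g) (dl l θ⁻¹ z ξ))
          (fun a ξ => 1 * l * dv e0 (a1 g a) (dl l θ⁻¹ z ξ))
          fun a b ξ => l * θ * l * dv e0 (a2 g a b) (dl l θ⁻¹ z ξ) := by
      have ev : ∀ᶠ q : W6 in 𝓝 (0, η), SA (a0 g) (dl l θ⁻¹ z q.1) ∧
          (∀ a, SA (a1 g a) (dl l θ⁻¹ z q.1)) ∧ ∀ a b, SA (a2 g a b) (dl l θ⁻¹ z q.1) :=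
        continuous_fst.continuousAt.eventually (p := fun y => SA (a0 g) (dl l θ⁻¹ z y) ∧
          (∀ a, SA (a1 g a) (dl l θ⁻¹ z y)) ∧ ∀ a b, SA (a2 g a b) (dl l θ⁻¹ z y))
          ((ev_dl s0' _ _).and ((eventually_all.2 fun a => ev_dl (s1 a) _ _).and
            (eventually_all.2 fun a => eventually_all.2 fun b => ev_dl (A2 a b).sa _ _)))
      rw [hd_eq g s0.ne']
      filter_upwards [ev, hq_ev (η := η) (sa_cm (l * θ)⁻¹ (sa_dl s0' l θ⁻¹))
        (fun a => sa_dl (s1 a) l θ⁻¹) fun a b => sa_cm (l * θ) (sa_dl (A2 a b).sa l θ⁻¹)] with q m m'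
      rw [Hs, hq_v m'.1 m'.2.1 m'.2.2]
      have e1 := fun a => dv_dl (m.2.1 a) 1
      simp only [one_mul] at e1
      simp only [Hq, dv_dl m.1, e1, dv_dl (m.2.2 _ _), one_mul]
    rw [div_eq_mul_inv, mul_assoc, mul_assoc]
    refine (hq_jb ((jb_cmul _ (res h.d0)).mono ?_) (fun a => (jb_cmul _ (res (h.d1 a))).mono ?_)
      (fun a b => (jb_cmul _ (res (A2 a b).d)).mono ?_) hη).congr e
    · rw [abs_of_pos (by positivity)]
      calc _ = n ! * C * (m * θ⁻¹) := by field_simp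
        _ ≤ _ := by gcongr
    · rw [abs_of_pos (by positivity)]
      calc _ = n ! * (l / r * C) * m := by ring
        _ ≤ n ! * (C * θ⁻¹ * C) * m := by gcongr
        _ = n ! * C ^ 2 * (m * θ⁻¹) := by ring
        _ ≤ _ := by gcongr
    · rw [abs_of_pos (by positivity)]
      calc _ = n ! * (l * (l * θ) / r ^ 2 * K) * m := by ring
        _ ≤ n ! * (C ^ 2 * θ⁻¹ * K) * m := by gcongr
        _ = n ! * (C ^ 2 * K) * (m * θ⁻¹) := by ring
        _ ≤ _ := by gcongr; linarith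
  · gcongr
    linarith

/-- **CO1**. -/
theorem co1 : CO1 := fun C0 => by
  refine ⟨6000 * (|C0| + 1), by linarith [abs_nonneg C0],
    by linarith [le_abs_self C0, abs_nonneg C0], fun C => ?_⟩
  by_cases hC : 1 ≤ C
  swap
  · exact ⟨1, fun _ _ _ _ _ _ _ h => absurd h hC⟩
  obtain ⟨K, K0, hK⟩ := pc_a2 4 hC
  refine ⟨20 * (C + K), fun r m l rc g z h _ rc1 => ?_⟩
  have c0 := h.sharp.1.nonneg
  have b0 := cl_of (h.sharp.1.ord (by norm_num : 2 ≤ 3))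
  have b1 := fun a => cl_of ((h.sharp.2.1 a).ord (by norm_num : 2 ≤ 3))
  have b2 := fun a b => cl_of ((h.sharp.2.2 a b).1.ord (by norm_num : 2 ≤ 3))
  rw [abs_of_nonneg c0]
  norm_num only [Nat.factorial, Nat.succ_eq_add_one] at b0 b1 b2
  refine ⟨?_, fun T hl lT Tr Trc mT => ?_⟩
  · rw [hd_eq g (by norm_num)]
    simp only [mul_one, inv_one, one_mul]
    exact lo_of b0 b1 b2 (dv_le b0) (fun a b => (b2 a b).zero) (by linarith) (by linarith)
      (by linarith)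
  have l1 : 1 ≤ l := by linarith
  have l2 : l ≤ T := by nlinarith
  have T0 : 0 < T := by linarith
  have r0 : 0 < r := by linarith
  have m0 : 0 ≤ m := by
    by_contra q
    nlinarith [h.dO.nonneg]
  have A2 := hK C0 r m l rc g z h (by linarith) r0
  have w : ∀ D, 0 ≤ D → D ≤ C + K → T / l * (D * m) ≤ 1 ∧ D * m ≤ 1 ∧ D / T ≤ 1 := fun D a b => by
    have e : T / l * (D * m) ≤ 1 := by
      rw [div_mul_eq_mul_div, div_le_one (by linarith)]
      nlinarith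
    exact ⟨e, (le_mul_of_one_le_left (by positivity) ((one_le_div (by linarith)).2 l2)).trans e,
      div_le_one_of_le₀ (by linarith) T0.le⟩
  have w1 := w C (by linarith) (by linarith)
  have w2 := w K K0 (by linarith)
  have u : T / r ≤ 1 := div_le_one_of_le₀ Tr r0.le
  have u0 : 0 ≤ T / r := by positivity
  have i1 : T⁻¹ ≤ 1 := inv_le_one_of_one_le₀ (by linarith)
  rw [hd_eq g (by positivity)]
  simp only [mul_one, inv_one]
  refine lo_of (c := 2 * C0 + 3) (e1 := 2 * C0 / T) (e2 := C0 / T)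
    ((jb_cmul _ (jb_two b0 one_ne_zero (h.d0.ord (by norm_num)) l1 l2)).mono ?_)
    (fun a => (jb_two (b1 a) one_ne_zero ((h.d1 a).ord (by norm_num)) l1 l2).mono ?_)
    (fun a b => (jb_cmul _ (jb_two ((A2 a b).v.ord (by norm_num)) (by linarith)
      ((A2 a b).d.ord (by norm_num)) l1 l2)).mono ?_) (fun a => ?_) (fun a b => ?_) (by linarith)
    (div_le_div_of_nonneg_right (by linarith) T0.le)
    (by rw [← mul_div_assoc]; exact div_le_div_of_nonneg_right (by linarith) T0.le)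
  · rw [abs_of_pos (by positivity)]
    calc _ = T⁻¹ * (2 * C0) + C * m + T / l * (C * m) := by field_simp
      _ ≤ 1 * (2 * C0) + 1 + 1 := by gcongr; exacts [w1.2.1, w1.1]
      _ ≤ _ := by linarith
  · calc _ = 2 * C0 + T / r * (C * m) + T / r * (T / l * (C * m)) := by ring
      _ ≤ 2 * C0 + 1 * 1 + 1 * 1 := by gcongr; exacts [w1.2.1, w1.1]
      _ ≤ _ := by linarith
  · rw [abs_of_pos T0]
    calc _ = (T / r) ^ 2 * (K / T + K * m + T / l * (K * m)) := by field_simp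
      _ ≤ 1 ^ 2 * (1 + 1 + 1) := by gcongr; exacts [w2.2.2, w2.2.1, w2.1]
      _ ≤ _ := by linarith
  · have s := h.sharp.1.sm
    have e : sc T 1 (ey a) = sc 1 1 (ey a) := by fin_cases a <;> simp [sc_ap, ey]
    have := dv_le b0 a
    rw [dv, fd_dl (by rwa [dl_zero]), dl_zero, ContinuousLinearMap.comp_apply, ← e] at this
    rw [dv, fderiv_const_mul (sa_dl s T 1).diff, fd_dl (by rwa [dl_zero]), dl_zero, smul_apply,
      smul_eq_mul, abs_mul, abs_of_pos (by positivity), div_eq_inv_mul]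
    exact mul_le_mul_of_nonneg_left this (by positivity)
  · rw [dl_zero, abs_mul, abs_of_pos T0]
    calc _ ≤ T * (C0 / T ^ 2) := by
          gcongr
          exact (h.sharp.2.2 a b).2.trans (by gcongr)
      _ = _ := by field_simp

end Vale.Agent.P354SG
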