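import Vale.Agent.P354SG.Lam
import Vale.Agent.P354SG.Co
import Vale.Agent.P354LN.Jt
import Vale.Agent.P354YR.Geo
import Vale.Agent.P354IN.Ini

/-!
EIK: the second optical function.
-/

open scoped ContDiff Topology Nat
open Set Filter

noncomputable section

namespace Vale.Agent.P354SG

open Vale.Agent.P354n (R4)
open Vale.Agent.P354R (Pull)
open Vale.Agent.P354XE (Tw pb)
open Vale.Agent.P354XB (Box)
open Vale.Agent.P354YQ
open Vale.Agent.P354SA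
open Vale.Agent.P354CH (jb_one jb_pos jb_le jb_sq)

section
variable {n n' k : ℕ} {C0 C C' r m l rc β β' θ κ η π : ℝ} {g : Tw} {z : R4}

theorem rp_mono (h : Rp n C0 C r m l rc g z) (e : n' ≤ n) (c : C ≤ C') (c0 : 0 < C) (m0 : 0 ≤ m)
    (r0 : 0 < r) : Rp n' C0 C' r m l rc g z :=
  have i := inv_anti₀ c0 c
  ⟨h.null, ⟨i.trans h.pos.1, le_trans (by gcongr) h.pos.2.1, h.pos.2.2⟩,
    ⟨(h.one.1.ord e).mono c, (h.one.2.1.ord e).mono c, fun a => ((h.one.2.2.1 a).ord e).mono c,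
      fun a b => ((h.one.2.2.2 a b).ord e).mono (by gcongr)⟩, (h.dO.ord e).mono (by gcongr),
    (h.d0.ord e).mono (by gcongr), fun a => ((h.d1 a).ord e).mono (by gcongr),
    fun a b => ((h.dg a b).ord e).mono (by gcongr), fun a b => ((h.chi a b).ord e).mono (by gcongr),
    fun a b c d => ((h.cur a b c d).ord e).mono (by gcongr), h.sharp⟩

theorem dnp_mono (h : DNp n C β r m θ π g z) (c : C ≤ C') (b : β ≤ β') (c0 : 0 < C) (m0 : 0 ≤ m)
    (r0 : 0 < r) (t0 : 0 ≤ θ) : DNp n C' β' r m θ π g z :=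
  have i := inv_anti₀ c0 c
  ⟨h.null, ⟨i.trans h.pos.1, le_trans (by gcongr) h.pos.2.1, h.pos.2.2⟩,
    ⟨h.one.1.mono c, fun a => (h.one.2.1 a).mono c, fun a b => (h.one.2.2 a b).mono (by gcongr)⟩,
    h.dO.mono (by gcongr), fun a => (h.db a).mono (by gcongr),
    fun a b => (h.dg a b).mono (by gcongr), fun a b => (h.chi a b).mono (by gcongr),
    fun a b c d => (h.cur a b c d).mono (by gcongr), fun a => (h.sharp.1 a).trans b, h.sharp.2⟩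

theorem Ij.mono {be : ℝ → ℝ} {La : R4 → ℝ} (h : Ij k C l θ κ η g be La z) (c : C ≤ C') :
    Ij k C' l θ κ η g be La z :=
  ⟨h.par, h.jbe.mono c, h.jla.mono c, h.jgy.mono c, h.mu.mono c, h.md⟩

theorem jd_back {Λ : R4 → ℝ} {F : ℝ} (h : JD (n + 1) (fun ξ => Λ (dl θ⁻¹ θ⁻¹ z ξ)) 0 F)
    (t : 1 ≤ θ) (F0 : 0 ≤ F) : JD n Λ z (n ! * F * θ ^ n) := by
  have t0 : θ ≠ 0 := by positivity
  have a : JD n (fun q : R4 => θ • (q - z)) z θ :=
    (((JD.id.sub (JD.const z)).clm (θ • .id ℝ R4)).mono (by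
      simp [norm_smul, abs_of_nonneg (zero_le_one.trans t)]))
  exact (JD.comp (u := fun ξ => Λ (dl θ⁻¹ θ⁻¹ z ξ)) (f := fun q : R4 => θ • (q - z))
    (by simpa using h.ord n.le_succ) a t F0).congr
    (.of_forall fun q => congrArg Λ (by simp [dl, smul_smul, t0, Prod.ext_iff]))

end

namespace Pm

variable {c : Pm} {Φ : R4 → E6} {p : R4} {ι : R4 → R2}

/-- Comparison of the weights at z with the weights of the slab at the time t. -/
structure Cm (c : Pm) (l θ t : ℝ) (z : R4) : Prop where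
  hl : l ≤ if 5 / 3 * c.T ≤ z.1 - z.2.1 then c.L else 1
  r : jb (z.1 - z.2.1) ≤ 4 * rb c.T t ∧ rb c.T t ≤ 4 * jb (z.1 - z.2.1) ∧ l * θ ≤ jb (z.1 - z.2.1)
  m : mm c.sw c.σ (z.1 - z.2.1) ≤ 60 * mt c.T c.sw t

def Zn (c : Pm) (Φ : R4 → E6) (ι : R4 → R2) (p : R4) : Prop :=
  ∃ l θ κ η, 1 ≤ l ∧ 1 ≤ θ ∧ θ ≤ vt c.T c.L p.1 ∧ l * θ ≤ c.T ∧
    η ≤ 3 * c.K * κ * θ * mt c.T c.sw p.1 ∧ Ij (c.n + 2) c.K l θ κ η c.g c.be c.La (c.xx ι p) ∧
    (∀ r ∈ Icc (0 : ℝ) 1, ‖(qq (pr (tu c.be) Φ (c.xx ι p) r)).2‖ ≤ 2 * (l * θ) ∧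
      c.Cm l θ p.1 (qq (pr (tu c.be) Φ (c.xx ι p) r)).1) ∧
    (2 * c.K)⁻¹ ≤ -dv nv (c.Lm Φ ι) p ∧
    ‖Qv c.g (sm c.R (c.Lm Φ ι) p, gy (c.Lm Φ ι) p)‖ ≤ 1 ∧
    ∀ a, -2 * dv nv (c.Lm Φ ι) p * a2 c.g a a (sm c.R (c.Lm Φ ι) p) ≤
      48 * c.C0 / jb (2 * (c.T - p.1) - c.sc) ^ 2 + 8 * c.K * c.C0 / c.T ^ 2

namespace Ok

variable (h : c.Ok)
include h

theorem far {y : ℝ} (a : 9 / 5 * c.T ≤ y) :
    c.T ≤ jb y ∧ c.T ≤ jb (y - c.sc) ∧ mm c.sw c.σ y * c.T ≤ 20 := by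
  have T := h.num.2.2.1
  obtain ⟨-, -, -, -, sc, sw, σ⟩ := h.ray.par
  have k : ∀ u, u ≤ jb u := fun u => (le_abs_self u).trans (abs_le_jb u)
  have i : ∀ u, c.T / 10 ≤ u → (jb u)⁻¹ * c.T ≤ 10 := fun u e => by
    rw [inv_mul_le_iff₀ (jb_pos u)]
    linarith [k u]
  refine ⟨by linarith [k y], by linarith [k (y - c.sc), sc.2, h.T.2.2.1],
    (mul_le_mul_of_nonneg_right (mm_le σ.1.le).2 (by linarith)).trans ?_⟩
  linarith [i y (by linarith), i (y - c.sw) (by linarith [sw.2])]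

variable (s : c.Sl Φ ι) (m : p ∈ c.Bx)
include s m

theorem zoneA (a : c.zA (c.xx ι p)) : c.Zn Φ ι p := by
  obtain ⟨-, w, T, θ⟩ := h.num
  obtain ⟨L, -, -, -, K1, CT⟩ := h.T
  obtain ⟨ε0, ε1, -⟩ := h.ε
  have C01 := h.ray.par.1
  have σ := h.ray.par.2.2.2.2.2.2.1.le
  have t := h.tr s m
  have I := h.In t.mem
  have A := (h.ap t).1
  have D : ∀ r ∈ Icc (0 : ℝ) 1, (qq (pr (tu c.be) Φ (c.xx ι p) r)).1 ∈ c.D :=
    fun r i => (t.sol _ (flip_mem i)).2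
  have v := t.mem.1.1
  have u := t.mem.1.2.1
  have X : 2 * (c.T - p.1) = -(c.xx ι p).2.1 - (c.xx ι p).1 := by
    simp only [xx, jj, co]
    ring
  have j := fun y => (inv_pos.2 (jb_pos y)).le
  have two4 : ∀ y, 2 * jb y ≤ 4 * jb y := fun y => by linarith [jb_pos y]
  have j1 := j (2 * (c.T - p.1))
  have j2 := j (2 * (c.T - p.1) - c.sw)
  have j3 := j p.1
  have n := h.nv_neg s m
  have w0 := h.w.1
  have K2 : (2 * c.K)⁻¹ ≤ c.K⁻¹ ∧ (2 * c.K)⁻¹ ≤ 1 / 2 :=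
    ⟨inv_anti₀ (by linarith) (by linarith), (inv_anti₀ two_pos (by linarith)).trans_eq
      (one_div _).symm⟩
  have z := h.sm_eq s m
  have mD := h.mD s m
  have b1 : 0 ≤ 48 * c.C0 / jb (2 * (c.T - p.1) - c.sc) ^ 2 := by positivity
  have b2 : 0 ≤ 8 * c.K * c.C0 / c.T ^ 2 := by positivity
  obtain ⟨η, e, i⟩ := (I.zA a).2.2
  have k : ∀ r ∈ Icc (0 : ℝ) 1, |(qq (pr (tu c.be) Φ (c.xx ι p) r)).1.1 -
      (qq (pr (tu c.be) Φ (c.xx ι p) r)).1.2.1 - 2 * (c.T - p.1)| ≤ 1 := fun r i => by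
    have f := abs_le.1 ((A r i).a a).1
    have g := (D r i).1.1
    rw [abs_le, X]
    simp only [qq] at g ⊢
    constructor <;> linarith [f.1, f.2, g.1, g.2, v.1, v.2]
  have mu := (h.mu_bd s m).1 a
  refine ⟨1, 1, 1, η, le_rfl, le_rfl, by unfold vt; split_ifs <;> linarith, by linarith,
    e.trans ?_, i, fun r i => ⟨(h.QA a _ (A r i) (D r i)).1.trans (by norm_num),
      by split_ifs <;> linarith, ⟨(jb_cmp (k r i)).trans (two4 _),
      (jb_cmp ((abs_sub_comm _ _).trans_le (k r i))).trans (two4 _),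
      (one_mul _).trans_le (jb_one _)⟩, (mm_le σ).2.trans ?_⟩, K2.2.trans mu.1,
    h.q_eq s m ▸ (h.QA a _ (h.apx s m) t.self.2).2.trans (by norm_num), fun e => ?_⟩
  · have := jb_inv_cmp (a := 2 * (c.T - p.1)) (b := -(c.xx ι p).2.1)
      (by rw [X, abs_le]; constructor <;> linarith [v.1, v.2])
    rw [show jb (-(c.xx ι p).2.1) = jb (c.xx ι p).2.1 by simp [jb]] at this
    unfold mt
    nlinarith
  · have f := jb_inv_cmp ((abs_sub_comm _ _).trans_le (k r i))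
    have g := jb_inv_cmp (a := 2 * (c.T - p.1) - c.sw) (by
      rw [sub_sub_sub_cancel_right, abs_sub_comm]; exact k r i)
    unfold mt
    linarith
  · have f := k 1 ⟨zero_le_one, le_rfl⟩
    rw [pr_one, ← z] at f
    have g := jb_cmp (a := 2 * (c.T - p.1) - c.sc) (by
      rw [sub_sub_sub_cancel_right, abs_sub_comm]; exact f)
    have o := (le_abs_self _).trans ((h.ray.pt _ mD).sharp.2.2 e e).2
    have q : c.C0 / jb ((sm c.R (c.Lm Φ ι) p).1 - (sm c.R (c.Lm Φ ι) p).2.1 - c.sc) ^ 2 ≤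
        4 * c.C0 / jb (2 * (c.T - p.1) - c.sc) ^ 2 := by
      rw [div_le_div_iff₀ (pow_pos (jb_pos _) 2) (pow_pos (jb_pos _) 2)]
      nlinarith [pow_le_pow_left₀ (jb_pos _).le g 2]
    rw [show 48 * c.C0 / jb (2 * (c.T - p.1) - c.sc) ^ 2 =
      12 * (4 * c.C0 / jb (2 * (c.T - p.1) - c.sc) ^ 2) by ring] at b1 ⊢
    nlinarith [mul_le_mul_of_nonneg_left (o.trans q) (neg_pos.2 n).le, mu.2]

theorem zoneB (b : c.zB (c.xx ι p)) : c.Zn Φ ι p := by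
  obtain ⟨-, w, T, θ⟩ := h.num
  obtain ⟨L, -, -, -, K1, CT⟩ := h.T
  obtain ⟨ε0, ε1, -⟩ := h.ε
  have C01 := h.ray.par.1
  have σ := h.ray.par.2.2.2.2.2.2.1.le
  have t := h.tr s m
  have I := h.In t.mem
  have A := (h.ap t).1
  have D : ∀ r ∈ Icc (0 : ℝ) 1, (qq (pr (tu c.be) Φ (c.xx ι p) r)).1 ∈ c.D :=
    fun r i => (t.sol _ (flip_mem i)).2
  have v := t.mem.1.1
  have u := t.mem.1.2.1
  have X : 2 * (c.T - p.1) = -(c.xx ι p).2.1 - (c.xx ι p).1 := by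
    simp only [xx, jj, co]
    ring
  have j := fun y => (inv_pos.2 (jb_pos y)).le
  have two4 : ∀ y, 2 * jb y ≤ 4 * jb y := fun y => by linarith [jb_pos y]
  have j1 := j (2 * (c.T - p.1))
  have j2 := j (2 * (c.T - p.1) - c.sw)
  have j3 := j p.1
  have n := h.nv_neg s m
  have w0 := h.w.1
  have K2 : (2 * c.K)⁻¹ ≤ c.K⁻¹ ∧ (2 * c.K)⁻¹ ≤ 1 / 2 :=
    ⟨inv_anti₀ (by linarith) (by linarith), (inv_anti₀ two_pos (by linarith)).trans_eq
      (one_div _).symm⟩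
  have z := h.sm_eq s m
  have mD := h.mD s m
  have b1 : 0 ≤ 48 * c.C0 / jb (2 * (c.T - p.1) - c.sc) ^ 2 := by positivity
  have b2 : 0 ≤ 8 * c.K * c.C0 / c.T ^ 2 := by positivity
  obtain ⟨κ, η, e, i⟩ := (I.zB b).2.2.2.2.2
  have k := fun r i => h.zb t.mem b (D r i) (((A r i).b b).1.trans (by linarith))
  have mu := (h.mu_bd s m).2 b
  have lt : c.L * (c.T / c.L) = c.T := by field_simp
  have r1 : c.T ≤ rb c.T p.1 :=
    le_trans (by linarith [v.2]) ((le_abs_self _).trans (abs_le_jb _))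
  have r2 : rb c.T p.1 ≤ 3 * c.T := (jb_le _).trans (by
    rw [abs_of_nonneg (by linarith [v.2])]; linarith [v.1, u.1])
  have r3 : c.T⁻¹ ≤ 3 * (jb (2 * (c.T - p.1)))⁻¹ := by
    rw [← div_eq_mul_inv, le_div_iff₀ (jb_pos _), inv_mul_le_iff₀ (by linarith)]
    exact r2.trans_eq (mul_comm _ _)
  have f := k 1 ⟨zero_le_one, le_rfl⟩
  rw [pr_one] at f
  refine ⟨c.L, c.T / c.L, κ, η, by linarith, θ, (if_pos (by linarith [v.2])).ge, lt.le,
    e.trans ?_, i, fun r i => ⟨((A r i).b b).2.trans (by rw [lt]; nlinarith),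
      (if_pos (by linarith [(k r i).1])).ge, ⟨(jb_le _).trans (by
        rw [abs_of_nonneg (by linarith [(k r i).1])]; linarith [(k r i).2]),
      by linarith [(h.far (k r i).1).1], lt.trans_le (h.far (k r i).1).1⟩, ?_⟩, K2.1.trans mu.1,
    h.q_eq s m ▸ (h.QB b _ (h.apx s m) t.self.2 f.1).trans
      ((div_le_one (by linarith)).2 (by nlinarith)), fun e => ?_⟩
  · have κ0 : 0 ≤ κ := (inv_pos.2 (by linarith)).le.trans i.par.1
    have g := jb_inv_cmp (a := 2 * p.1) (b := (c.xx ι p).2.1 + 2 * c.T)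
      (by rw [abs_le]; constructor <;> linarith [v.1, v.2])
    have o : (jb (2 * p.1))⁻¹ ≤ (jb p.1)⁻¹ :=
      inv_anti₀ (jb_pos _) (Real.sqrt_le_sqrt (by nlinarith [sq_nonneg p.1]))
    refine (mul_le_mul_of_nonneg_left (show _ ≤ 3 * mt c.T c.sw p.1 by unfold mt; linarith)
      (by positivity)).trans_eq (by ring)
  · have := (le_div_iff₀ (by linarith)).2 (h.far (k r i).1).2.2
    unfold mt
    rw [div_eq_mul_inv] at this
    linarith
  · have o := (le_abs_self _).trans (h.a2B mD (z ▸ f.1) e e)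
    have : 0 ≤ c.C0 / c.T ^ 2 := by positivity
    rw [mul_div_assoc (8 * c.K)]
    linarith [mul_le_mul_of_nonneg_left o (neg_pos.2 n).le, mul_le_mul_of_nonneg_right mu.2 this]

end Ok

end Pm

theorem fin (n : ℕ) (C K : ℝ) : ∃ C', 10 ≤ C' ∧ ∀ (c : Pm) Φ ι, c.n = n → c.C = C → c.K = K →
    c.Ok → c.Sl Φ ι → ∀ p ∈ c.Bx, (dv nv (c.Lm Φ ι) p ≤ -(C' * c.T)⁻¹ ∧
      JD (n + 1) (c.Lm Φ ι) p ((C' * c.T) ^ (n + 1))) ∧
      DNp n C' (98 * c.C0 + 6) (rb c.T p.1) (mt c.T c.sw p.1) (vt c.T c.L p.1)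
        (pw (48 * c.C0) (8 * c.K * c.C0) c.T c.sc p.1) (pb (sm c.R (c.Lm Φ ι)) c.g) p := by
  obtain ⟨K2, k2, co⟩ := co2 (n + 4) (max C 2)
  obtain ⟨F, f1, jt⟩ := P354LN.jt n (60 * K2 + 3 * |K|)
  obtain ⟨G, g1, geo⟩ := P354YR.geo n (F + 60 + |C| + 2 * |K|)
  have a0 := abs_nonneg K
  have a1 := abs_nonneg C
  have a2 : (0 : ℝ) ≤ (n + 1)! * F := by positivity
  refine ⟨G + 10 + (n + 1)! * F + 2 * |K|, by linarith, ?_⟩
  rintro c Φ ι rfl rfl rfl h s p m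
  obtain ⟨l, θ, κ, η, l1, t1, t2, lt, e, i, k, mu, Q, pi⟩ :=
    (lt_or_ge _ _).elim (h.zoneA s m) (h.zoneB s m)
  have T := h.num.2.2.1
  have K1 := h.T.2.2.2.2.1
  obtain ⟨C01, C1, -, -, -, -, σ⟩ := h.ray.par
  rw [abs_of_nonneg (zero_le_one.trans K1)] at *
  rw [abs_of_nonneg (zero_le_one.trans C1)] at *
  have t := h.tr s m
  have j := fun y => inv_pos.2 (jb_pos y)
  have j' := fun y => inv_le_one_of_one_le₀ (jb_one y)
  have m1 : (rb c.T p.1)⁻¹ ≤ mt c.T c.sw p.1 := by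
    unfold mt rb
    linarith [j p.1, j (2 * (c.T - p.1) - c.sw)]
  have m0 := (j _).trans_le m1
  have m3 : mt c.T c.sw p.1 ≤ 3 := by
    unfold mt
    linarith [j' p.1, j' (2 * (c.T - p.1) - c.sw), j' (2 * (c.T - p.1))]
  have κ0 : 0 ≤ κ := (inv_pos.2 (by linarith)).le.trans i.par.1
  obtain ⟨J1, J2, J3⟩ := jt c.g Φ ι c.be c.La (c.Lm Φ ι) p _ c.R c.T l θ κ η _ rfl (by linarith) l1
    t1 m0 (by linarith) (e.trans (by gcongr; linarith)) h.be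
    ((h.tau t.mem).trans (by linarith [h.num.2.1])) (h.saι s m) (h.evι s m) (h.ap t).2
    (fun r a => ⟨(t.sol r a).1, by
      obtain ⟨u, v⟩ := k _ (flip_mem a)
      simp only [pr, sub_sub_cancel] at u v
      have D := (t.sol r a).2
      have w := fun ζ => co c.C0 _ _ l _ θ _ c.g _ ζ (rp_mono (h.ray.pt _ D) le_rfl
        (le_max_left _ 2) (by linarith) (mm_le σ.1.le).1 (jb_pos _)) (C1.trans (le_max_left _ _))
        (jb_one _) ((mm_le σ.1.le).2.trans ((add_le_add (j' _) (j' _)).trans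
          (one_add_one_eq_two.trans_le (le_max_right _ _)))) l1 v.hl t1
        (v.r.2.2.trans (le_mul_of_one_le_left (jb_pos _).le (C1.trans (le_max_left _ _))))
      refine ⟨h.sa D, u, _, (w 0 (by simp)).2.2.1.trans (by linarith), fun ζ b =>
        ⟨((w ζ b).1.ord (by omega)).mono (by gcongr; linarith),
          ((w ζ b).2.1.ord (by omega)).mono ?_⟩⟩
      gcongr ?_ / _
      nlinarith [v.m, mul_le_mul_of_nonneg_left v.m (zero_le_one.trans k2)]⟩)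
    t.ft (i.mono (by linarith)) ((h.apx s m).y.2.trans (by norm_num)) (.of_forall fun _ => rfl)
    ((Pm.oX.eventually_mem m).mono fun q a => h.d_nv s a)
  obtain ⟨-, v⟩ := k 1 ⟨zero_le_one, le_rfl⟩
  rw [pr_one, ← h.sm_eq s m] at v
  have r0 : 0 < rb c.T p.1 := jb_pos _
  refine ⟨⟨le_neg.1 (le_trans (inv_anti₀ (by linarith) (by nlinarith)) mu),
    (jd_back J1 t1 (by positivity)).mono ?_⟩, dnp_mono (geo c.C0 l _ θ _ _ _ _ _ _ _ c.R c.g _ c.Bx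
      c.D p (h.pull s) m (fun q a => have r := h.ray.pt _ (h.mD s a)
        ⟨r.null.1, r.null.2, (inv_pos.2 (by linarith)).trans_le r.pos.1,
          (mul_pos (inv_pos.2 (by linarith)) (pow_pos (jb_pos _) 4)).trans_le r.pos.2.1,
          h.d_hj s a⟩)
      (rp_mono (h.ray.pt _ (h.mD s m)) le_rfl (by linarith) (by linarith) (mm_le σ.1.le).1
        (jb_pos _)) (by linarith) (jb_one _) (v.r.1.trans (by gcongr; linarith))
      (v.r.2.1.trans (mul_le_mul_of_nonneg_right (by linarith) (jb_pos _).le))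
      (v.m.trans (by gcongr; linarith)) m1 l1 v.hl t1 t2
      (v.r.2.2.trans (v.r.1.trans (by gcongr; linarith)))
      ⟨J1.mono (by gcongr; linarith), ⟨J2.mono (by linarith),
        (inv_anti₀ (by linarith) (by linarith)).trans mu⟩, J3.mono (by gcongr; linarith),
        fun a => ?_, fun a => (pi a).trans_eq (Real.sq_sqrt (by positivity)).symm⟩)
    (by linarith) (by linarith) (by linarith) m0.le r0 (by linarith)⟩
  · have b : (1 : ℝ) ≤ (c.n + 1)! * F :=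
      one_le_mul_of_one_le_of_one_le (by exact_mod_cast Nat.factorial_pos _) f1
    have d : θ ≤ c.T := (le_mul_of_one_le_left (by linarith) l1).trans lt
    calc ((c.n + 1)! : ℝ) * (F * l) * θ ^ (c.n + 1) = (c.n + 1)! * F * (l * θ * θ ^ c.n) := by ring
      _ ≤ (G + 10 + (c.n + 1)! * F + 2 * c.K) ^ (c.n + 1) * (c.T * c.T ^ c.n) := by
        gcongr
        exact le_trans (by linarith) (le_self_pow₀ (by linarith) (by omega))
      _ = _ := by rw [mul_pow, pow_succ' c.T]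
  · fin_cases a
    exacts [(norm_fst_le (Qv c.g _)).trans Q, (norm_snd_le (Qv c.g _)).trans Q]

theorem lo_of {n : ℕ} {C0 C K0 T1 ε T L w δ sc sw σ : ℝ} {S g} (ray : Ray (n + 4) C0 C ε T L w δ sc sw σ S g)
    (co : ∀ (r m l rc : ℝ) (g : Tw) (z : R4), Rp 4 C0 C r m l rc g z → 1 ≤ C → 1 ≤ rc →
      Lo K0 K0 K0 (Hd (Hm g) 1 1 z) ∧ ∀ T, T1 ≤ l → l ^ 2 ≤ T → T ≤ r → T ≤ rc → m * T ≤ 20 →
        Lo K0 (K0 / T) (K0 / T) (Hd (Hm g) T 1 z)) (h1 : T1 ≤ L) (hT : L ^ 2 ≤ T) (hC : 10 * C ≤ T) :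
    ∀ z ∈ RD w δ S, Lo K0 K0 K0 (Hd (Hm g) 1 1 z) ∧ (9 / 5 * T ≤ z.1 - z.2.1 →
      Lo K0 (K0 / T) (K0 / T) (Hd (Hm g) T 1 z)) := fun z m => by
  obtain ⟨-, C1, -, -, sc1, sw1, σ1⟩ := ray.par
  have r := co _ _ _ _ g z (rp_mono (ray.pt z m) (Nat.le_add_left 4 n) le_rfl (by linarith)
    (mm_le σ1.1.le).1 (jb_pos _)) C1 (jb_one _)
  refine ⟨r.1, fun a => ?_⟩
  have k : ∀ u, u ≤ jb u := fun u => (le_abs_self u).trans (abs_le_jb u)
  have i : ∀ u, T / 10 ≤ u → (jb u)⁻¹ * T ≤ 10 := fun u e => by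
    rw [inv_mul_le_iff₀ (jb_pos u)]
    linarith [k u]
  rw [if_pos (by linarith)] at r
  refine r.2 T h1 hT (by linarith [k (z.1 - z.2.1)]) (by linarith [k (z.1 - z.2.1 - sc), sc1.2])
    ((mul_le_mul_of_nonneg_right (mm_le σ1.1.le).2 (by linarith)).trans ?_)
  linarith [i (z.1 - z.2.1) (by linarith), i (z.1 - z.2.1 - sw) (by linarith [sw1.2])]

theorem eps {ε C C0 : ℝ} (e1 : 0 < ε) (C1 : 1 ≤ C) (C01 : 1 ≤ C0)
    (e2 : ε * (120 * ((C + 1) * (C0 + 1))) ≤ 1) : ε ≤ 1 / 100 ∧ 120 * C * C0 * ε ^ 2 ≤ 1 := by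
  have a : 0 < ε * (C * C0) := by positivity
  have b : 0 < ε * C := by positivity
  have d : 0 < ε * C0 := by positivity
  have e3 : ε ≤ 1 / 100 := by linarith
  have : 120 * C * C0 * ε ≤ 1 := by linarith
  exact ⟨e3, by nlinarith⟩

/-- **EIK.** -/
theorem eik : EIK := fun C0 => by
  obtain ⟨K0, k1, k2, co⟩ := co1 C0
  obtain ⟨N, k3, lw⟩ := low2 K0 k1
  obtain ⟨w1, w0, ini⟩ := P354IN.ini' C0
  have N0 : 0 < 2000 * (N * N) := by nlinarith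
  refine ⟨98 * C0 + 6, min w1 (2000 * (N * N))⁻¹, by positivity, fun w hw n C => ?_⟩
  obtain ⟨K, ε0, K1, e0, ini⟩ := ini w ⟨hw.1, hw.2.trans (min_le_left _ _)⟩ n C
  obtain ⟨T1, co⟩ := co C
  obtain ⟨C', c10, fn⟩ := fin n C K
  have a2 : 0 < 120 * ((|C| + 1) * (|C0| + 1)) := by positivity
  obtain ⟨ε, e1, e2, e3⟩ : ∃ ε, 0 < ε ∧ ε ≤ ε0 ∧ ε * (120 * ((|C| + 1) * (|C0| + 1))) ≤ 1 :=
    ⟨min ε0 (1 / (120 * ((|C| + 1) * (|C0| + 1)))), by positivity, min_le_left _ _,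
      (le_div_iff₀ a2).1 (min_le_right _ _)⟩
  obtain ⟨T2, ini⟩ := ini ε ⟨e1, e2⟩
  refine ⟨C', ε, |T1| + |T2| + 100 + 10 * |C| + 8 * K * (|C0| + 1) + ε⁻¹, e1,
    fun T L δ sc sw σ S g R hL hT ray => ?_⟩
  obtain ⟨C01, C1, δ0, δ1, -, sw1, -⟩ := ray.par
  rw [abs_of_nonneg (zero_le_one.trans C1), abs_of_nonneg (zero_le_one.trans C01)] at hL e3
  have b1 := abs_le.1 (le_refl |T1|)
  have b2 := abs_le.1 (le_refl |T2|)
  have b3 := inv_pos.2 e1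
  have b5 : C0 ≤ K * C0 := le_mul_of_one_le_left (by linarith) K1
  obtain ⟨L1, l1, l2, l3, l4, l5, l6⟩ : 100 ≤ L ∧ T1 ≤ L ∧ T2 ≤ L ∧ 10 * C ≤ L ∧ K ≤ L ∧
      8 * K * C0 ≤ L ∧ ε⁻¹ ≤ L := by
    refine ⟨?_, ?_, ?_, ?_, ?_, ?_, ?_⟩ <;>
      linarith only [hL, b1.1, b1.2, b2.1, b2.2, b3, b5, K1, C1, C01]
  have LT : L ≤ T := by nlinarith only [hT, L1]
  obtain ⟨be, La, i1, i2, i3⟩ := ini T L δ sc sw σ S g l2 hT ray
  obtain ⟨δ', d0, d1, d2⟩ : ∃ δ', 0 < δ' ∧ δ' ≤ w / 2 ∧ 16 * C * δ' ≤ δ :=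
    ⟨min (w / 2) (δ / (16 * C)), lt_min (half_pos hw.1) (by positivity), min_le_left _ _,
      (le_div_iff₀' (by positivity)).1 (min_le_right _ _)⟩
  have d3 : δ' ≤ δ := by nlinarith only [d0, d2, C1]
  have w2 := (le_div_iff₀ N0).1 ((hw.2.trans (min_le_right _ _)).trans_eq (one_div _).symm)
  have h : Pm.Ok ⟨n, C0, C, K0, N, K, ε, T, L, w, δ, δ', sc, sw, σ, R, S, g, be, La⟩ :=
    ⟨ray, ⟨k1, k2, k3⟩, ⟨hw.1, by linarith only [w2]⟩, ⟨e1, (eps e1 C1 C01 e3).1,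
      (eps e1 C1 C01 e3).2, (inv_le_iff_one_le_mul₀' e1).1 (l6.trans LT)⟩,
      ⟨L1, hT, l3.trans LT, l4, K1, by linarith only [b5, l5, LT, C01]⟩, ⟨d0, d1, d2⟩,
      lo_of ray co l1 hT (l3.trans LT), lw, i1, i2, i3⟩
  obtain ⟨Φ, ι, s⟩ := h.exs
  have f := fn _ Φ ι rfl rfl rfl h s
  obtain ⟨w1, w2, w3, w4, w5, w6⟩ := P354CH.wt (48 * C0) (8 * K * C0) T L δ' sw sc (by positivity)
    (by positivity) (by linarith only [L1]) hT (l5.trans LT) ⟨d0, d3.trans δ1⟩ sw1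
  have T1 : 100 ≤ T := L1.trans LT
  have lg : 1 ≤ Real.log T := (Real.le_log_iff_exp_le (by positivity)).2
    (Real.exp_one_lt_three.le.trans (by linarith only [T1]))
  exact ⟨δ', ⟨d0, d3⟩, _, rb T, mt T sw, vt T L, pw (48 * C0) (8 * K * C0) T sc, h.pull s,
    h.inj s, fun p m => ⟨(f p m).1.1, (f p m).1.2, h.ends s m⟩,
    ⟨by linarith only [c10], by linarith only [T1], d0, d3.trans δ1, hw.1,
      by nlinarith only [c10, lg]⟩,
    P354RC.k2.1 _ _ _ _ _ (h.pull s), P354RC.k2.2.1 _ _ _ _ _ (h.pull s) ray.vac,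
    fun p m => (f p m).2, fun t m => have ⟨a, b, d, e, i, j, k⟩ := w1 t m
      ⟨a, b.trans (by nlinarith only [c10, T1]), d, by linarith only [c10, e], i, j,
        fun u => ⟨by linarith only [(k u).1, c10], (k u).2⟩⟩,
    w2, ⟨w3.1, w3.2.1, w3.2.2.trans (by nlinarith only [c10, lg])⟩, w4, w5,
    by linarith only [w6, C01]⟩

end Vale.Agent.P354SG
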