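import Vale.Agent.P354SA.Defs

/-!
The pieces of EIK: definitions and exact statements.
-/

open scoped ContDiff Topology
open Set Filter

noncomputable section

namespace Vale.Agent.P354SG

open Vale.Agent.P354n (R4)
open Vale.Agent.P354R (Met Vac Pull)
open Vale.Agent.P354XE (Tw pb)
open Vale.Agent.P354YQ (SA JB JD)
open Vale.Agent.P354SA

/-! ### The Hamiltonian -/

abbrev R2 : Type := ℝ × ℝ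
abbrev W6 : Type := R4 × R2

def ip (a b : R2) : ℝ := a.1 * b.1 + a.2 * b.2
def lc (a : Fin 2) (l : R2) : ℝ := ![l.1, l.2] a

/-- The gradient on the spheres. -/
def gy (Λ : R4 → ℝ) (p : R4) : R2 := (dv (ey 0) Λ p, dv (ey 1) Λ p)

def Hm (g : Tw) (q : W6) : ℝ := a0 g q.1 + ∑ a, a1 g a q.1 * lc a q.2 +
  ∑ a, ∑ b, a2 g a b q.1 * lc a q.2 * lc b q.2

/-- The partial derivatives of a Hamiltonian. -/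
def Hs (H : W6 → ℝ) (q : W6) : ℝ := fderiv ℝ H q (e0, 0)
def Hy (H : W6 → ℝ) (q : W6) : R2 := (fderiv ℝ H q (ey 0, 0), fderiv ℝ H q (ey 1, 0))
def Hl (H : W6 → ℝ) (q : W6) : R2 := (fderiv ℝ H q (0, 1, 0), fderiv ℝ H q (0, 0, 1))

/-- The scaled Hamiltonian at z: s in units of l, the other variables in units of 1 / θ. -/
def Hd (H : W6 → ℝ) (l θ : ℝ) (z : R4) (q : W6) : ℝ :=
  (l * θ)⁻¹ * H (dl l θ⁻¹ z q.1, (l * θ) • q.2)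

/-! ### GEO: from the optical function to the bounds for the metric -/

structure Op (n : ℕ) (K l θ m π : ℝ) (g : Tw) (R : ℝ) (Λ : R4 → ℝ) (p : R4) : Prop where
  jet : JD (n + 2) (fun ξ => Λ (dl θ⁻¹ θ⁻¹ p ξ)) 0 (K * l)
  mu : Cl (n + 1) θ⁻¹ θ⁻¹ (dv nv Λ) p K ∧ K⁻¹ ≤ -dv nv Λ p
  dmu : Cl n θ⁻¹ θ⁻¹ (dv nv (dv nv Λ)) p (K * θ * m)
  sharp : (∀ a, |∑ b, a2 g a b (sm R Λ p) * lc b (gy Λ p)| ≤ 1) ∧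
    ∀ a, -2 * dv nv Λ p * a2 g a a (sm R Λ p) ≤ π ^ 2

def GEO : Prop :=
  ∀ (n : ℕ) (K : ℝ), ∃ C' : ℝ, 1 ≤ C' ∧ ∀ (C0 l l' θ ϑ r r' m m' π rc R : ℝ) (g : Tw) (Λ : R4 → ℝ)
    (B D : Set R4) (p : R4), Pull (sm R Λ) (pb (sm R Λ) g) B g D → p ∈ B →
    (∀ q ∈ B, g (sm R Λ q) e0 e0 = 0 ∧ (∀ a, g (sm R Λ q) e0 (ey a) = 0) ∧
      0 < Om g (sm R Λ q) ∧ 0 < dg g (sm R Λ q) ∧
      dv (1, 1, 0, 0) Λ q = 2 * Hm g (sm R Λ q, gy Λ q)) →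
    Rp (n + 4) C0 K r' m' l' rc g (sm R Λ p) → 1 ≤ K → 1 ≤ r → r' ≤ K * r → r ≤ K * r' →
    m' ≤ K * m → r⁻¹ ≤ m → 1 ≤ l → l ≤ l' → 1 ≤ θ → θ ≤ ϑ → l * θ ≤ K * r →
    Op n K l θ m π g R Λ p → DNp n C' (2 * C0 + 4) r m ϑ π (pb (sm R Λ) g) p

/-! ### WT: the weights -/

def rb (T t : ℝ) : ℝ := jb (2 * (T - t))
def mt (T sw t : ℝ) : ℝ := (jb (2 * (T - t)))⁻¹ + (jb (2 * (T - t) - sw))⁻¹ + (jb t)⁻¹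
def vt (T L t : ℝ) : ℝ := if t ≤ T / 6 then T / L else 1
def pw (B K T sc t : ℝ) : ℝ := √(B / jb (2 * (T - t) - sc) ^ 2 + K / T ^ 2)

def WT : Prop :=
  ∀ B K T L δ sw sc : ℝ, 0 ≤ B → 0 ≤ K → 10 ≤ L → L ^ 2 ≤ T → K ≤ T → δ ∈ Ioc (0 : ℝ) 1 →
    sw ∈ Icc 0 (3 / 2 * T) →
    (∀ t ∈ Icc (-δ) (T + δ), 1 ≤ rb T t ∧ rb T t ≤ 3 * T ∧ (rb T t)⁻¹ ≤ mt T sw t ∧
      mt T sw t ≤ 3 ∧ 1 ≤ vt T L t ∧ vt T L t ≤ T / L ∧ (T - 1 ≤ t → rb T t ≤ 3 ∧ vt T L t = 1)) ∧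
    Antitone (vt T L) ∧ (Continuous (mt T sw) ∧ (∀ t, 0 ≤ mt T sw t) ∧
      ∫ t in (-δ)..T + δ, mt T sw t ≤ 10 * Real.log T) ∧
    Continuous (pw B K T sc) ∧ (∀ t, 0 ≤ pw B K T sc t) ∧
      ∫ t in (0 : ℝ)..T + δ, pw B K T sc t ^ 2 ≤ 2 * B + 2

/-! ### INV, IJ: inversion of the angular part of the flow -/

def Cyl (Bs : Set R2) (ρ : ℝ) : Set R4 := {x | (x.1, x.2.1) ∈ Bs ∧ ‖x.2.2‖ < ρ}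

def INV : Prop :=
  ∀ (Bs : Set R2) (y : R4 → R2), IsOpen Bs → ContDiffOn ℝ ∞ y (Cyl Bs 7) →
    (∀ x ∈ Cyl Bs 7, ‖y x - x.2.2‖ ≤ 1 / 2 ∧ ∀ η : R2, ‖fderiv ℝ y x (0, 0, η) - η‖ ≤ ‖η‖ / 2) →
    ∃ ι : R4 → R2, ContDiffOn ℝ ∞ ι (Cyl Bs 6) ∧
      ∀ x ∈ Cyl Bs 6, ‖ι x‖ < 7 ∧ y (x.1, x.2.1, ι x) = x.2.2

def IJ : Prop :=
  ∀ (k : ℕ) (C : ℝ), ∃ F : ℝ, 1 ≤ F ∧ ∀ (y ι : R4 → R2) (x : R4), SA ι x →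
    JD k y (x.1, x.2.1, ι x) C →
    (∀ η : R2, ‖fderiv ℝ y (x.1, x.2.1, ι x) (0, 0, η) - η‖ ≤ ‖η‖ / 2) →
    (∀ᶠ x' in 𝓝 x, y (x'.1, x'.2.1, ι x') = x'.2.2) → JD k ι x F

/-! ### CO: bounds for the scaled Hamiltonian -/

/-- Low orders, with a constant which depends on C0 only; s and λ in units of σ. -/
structure Lo (K e1 e2 : ℝ) (H : W6 → ℝ) : Prop where
  jb : ∀ l : R2, ‖l‖ ≤ 2 → JB 2 H (0, l) K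
  hy : ∀ l : R2, ‖l‖ ≤ 2 → ‖Hy H (0, l)‖ ≤ e1 + K * ‖l‖
  hl : ∀ l η : R2, ‖l‖ ≤ 2 → ‖fderiv ℝ (Hl H) (0, l) (0, η)‖ ≤ e2 * ‖η‖

def CO1 : Prop :=
  ∀ C0 : ℝ, ∃ K : ℝ, 1 ≤ K ∧ C0 ≤ K ∧ ∀ C : ℝ, ∃ T0 : ℝ, ∀ (r m l rc : ℝ) (g : Tw) (z : R4),
    Rp 4 C0 C r m l rc g z → 1 ≤ C → 1 ≤ rc → Lo K K K (Hd (Hm g) 1 1 z) ∧
      ∀ T, T0 ≤ l → l ^ 2 ≤ T → T ≤ r → T ≤ rc → m * T ≤ 20 →
        Lo K (K / T) (K / T) (Hd (Hm g) T 1 z)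

/-- High orders: the field is damped by 1 / θ up to a constant drift. -/
def CO2 : Prop :=
  ∀ (n : ℕ) (C : ℝ), ∃ K : ℝ, 1 ≤ K ∧ ∀ (C0 r m l l' θ rc : ℝ) (g : Tw) (z : R4) (η : R2),
    Rp n C0 C r m l' rc g z → 1 ≤ C → 1 ≤ r → m ≤ C → 1 ≤ l → l ≤ l' → 1 ≤ θ → l * θ ≤ C * r →
    ‖η‖ ≤ 2 →
    JB n (fun q => Hd (Hm g) l θ z q - ip (a1 g 0 z, a1 g 1 z) q.2) (0, η) (K / θ) ∧
      JB n (Hs (Hd (Hm g) l θ z)) (0, η) (K * m / θ) ∧ ‖((a1 g 0 z, a1 g 1 z) : R2)‖ ≤ K ∧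
      ∀ a b, Cl n l' 1 (a2 g a b) z (K / r ^ 2)

end Vale.Agent.P354SG
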