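import Vale.Agent.P354YQ.Max

/-!
Jets of families of solutions on long intervals, when the derivatives of the field are small.
-/

open Set Filter Topology
open scoped ContDiff Nat

namespace Vale.Agent.P354SG

open Vale.Agent.P354YQ

section
variable {X E : Type} [NormedAddCommGroup X] [NormedSpace ℝ X] [NormedAddCommGroup E]
  [NormedSpace ℝ E] {e : X} {τ : X → ℝ} {v : X × E → E} {Φ : X → E} {z : X} {k : ℕ} {C s : ℝ}

theorem pt_d (s : ℝ) : HasDerivAt (fun r => pt e τ (1 - r) z) (τ z • e) s := by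
  simpa [pt] using ((((hasDerivAt_id s).const_sub 1).mul_const (τ z)).smul_const e).const_sub z

/-- The derivative along the line from the foot. -/
theorem line {F : Type} [NormedAddCommGroup F] [NormedSpace ℝ F] {f : X → F}
    (h : DifferentiableAt ℝ f (pt e τ (1 - s) z)) :
    HasDerivAt (fun r => f (pt e τ (1 - r) z)) (τ z • fderiv ℝ f (pt e τ (1 - s) z) e) s := by
  rw [← map_smul]
  exact h.hasFDerivAt.comp_hasDerivAt s (pt_d s)

theorem sol_line (h : Sol e v Φ (pt e τ (1 - s) z)) : HasDerivAt (fun r => Φ (pt e τ (1 - r) z))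
    (τ z • v (pt e τ (1 - s) z, Φ (pt e τ (1 - s) z))) s :=
  h.ode.self_of_nhds ▸ line h.sm.diff

theorem jd_pt' (hs : s ∈ Icc (0 : ℝ) 1) (he : ‖e‖ ≤ C) (h : JD k τ z C) :
    JD k (pt e τ s) z (1 + C * C) := by
  refine ((JD.id.sub (h.clm ((ContinuousLinearMap.id ℝ ℝ).smulRight (s • e)))).mono ?_).congr
    (.of_forall fun w => by simp [pt, smul_smul, mul_comm])
  have := norm_nonneg e
  have : 0 ≤ C := by linarith
  rw [ContinuousLinearMap.norm_smulRight_apply, ContinuousLinearMap.norm_id, one_mul, norm_smul,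
    Real.norm_of_nonneg hs.1]
  have := hs.2
  gcongr
  nlinarith

theorem jb_csmul {F : Type} [NormedAddCommGroup F] [NormedSpace ℝ F] {f : X → F} (c : ℝ)
    (h : JB k f z C) : JB k (fun w => c • f w) z (|c| * C) :=
  (h.clm (c • ContinuousLinearMap.id ℝ F)).mono (mul_le_mul_of_nonneg_right
    (by
      rw [norm_smul, Real.norm_eq_abs]
      exact mul_le_of_le_one_right (abs_nonneg c) ContinuousLinearMap.norm_id_le) h.nonneg)

end

theorem dj_core (k : ℕ) (C : ℝ) : ∃ F, 0 ≤ F ∧ ∀ (X E : Type) [NormedAddCommGroup X]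
    [NormedSpace ℝ X] [NormedAddCommGroup E] [NormedSpace ℝ E] (e : X) (τ : X → ℝ)
    (v : X × E → E) (Φ : X → E) (z : X) (D : ℝ), ‖e‖ ≤ C → JD k τ z C → 0 ≤ D → D ≤ C →
    |τ z| * D ≤ C → (∀ s ∈ Icc (0 : ℝ) 1, Sol e v Φ (pt e τ s z) ∧
      ‖v (pt e τ s z, Φ (pt e τ s z))‖ ≤ C ∧ JD k v (pt e τ s z, Φ (pt e τ s z)) D) →
    JD k (fun w => Φ (pt e τ 1 w)) z C →
    ∀ s ∈ Icc (0 : ℝ) 1, JD k (fun w => Φ (pt e τ s w)) z F := by
  induction k with
  | zero =>
    exact ⟨0, le_rfl, fun X E _ _ _ _ e τ v Φ z D he hτ _ _ _ h _ s m =>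
      JD.zero ((h s m).1.sm.comp (jd_pt' m he hτ).sm)⟩
  | succ k ih =>
    obtain ⟨F, F0, ih⟩ := ih
    let P := 1 + C * C
    let M := 2 ^ k * (k ! * (P + F) ^ k)
    let L := (2 ^ (k + 1) * |C| + 1) * |C| * M
    have P1 : 1 ≤ P := le_add_of_nonneg_right (mul_self_nonneg C)
    refine ⟨(|C| + (L * P + (2 ^ (k + 1) * |C| + 1) * |C|)) * Real.exp L, by positivity,
      fun X E _ _ _ _ e τ v Φ z D he hτ D0 DC hD h h0 s m => ?_⟩
    have C0 := D0.trans DC
    have i := ih X E e τ v Φ z D he (hτ.ord k.le_succ) D0 DC hD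
      (fun s m => ⟨(h s m).1, (h s m).2.1, (h s m).2.2.ord k.le_succ⟩) (h0.ord k.le_succ)
    have sc : ∀ s ∈ Icc (0 : ℝ) 1, SA (fun p : ℝ × X => Φ (pt e τ (1 - p.1) z)) (s, z) :=
      fun s m => SA.comp (f := fun p : ℝ × X => pt e τ (1 - p.1) z) (h _ (flip_mem m)).1.sm
        (SA.of (by unfold pt; fun_prop))
    have := gron_jet (k := k + 1) (q := z) (L := L) (a := |C|)
      (b := L * P + (2 ^ (k + 1) * |C| + 1) * |C|)
      (Ψ := fun p : ℝ × X => Φ (pt e τ (1 - p.1) p.2) - Φ (pt e τ (1 - p.1) z)) (by positivity)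
      (by positivity)
      (fun s m => (sa_psi hτ.sm (h _ (flip_mem m)).1.sm).sub (sc s m))
      (fun s m r hr => ?_) (by simpa using (h0.sub_const C0).mono (le_abs_self C)) _ (flip_mem m)
    · simpa using JD.of_sub (f := fun q => Φ (pt e τ (1 - (1 - s)) q))
        (Φ (pt e τ (1 - (1 - s)) z)) this.jd
    have r0 := hr.nonneg
    obtain ⟨h1, h2, h3⟩ := h _ (flip_mem m)
    have p := jd_pt' (flip_mem m) he hτ
    have g1 : JD k (fun w => (pt e τ (1 - s) w, Φ (pt e τ (1 - s) w))) z (P + F) :=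
      ((p.ord k.le_succ).mono (le_add_of_nonneg_right F0)).prod
        ((i _ (flip_mem m)).mono (le_add_of_nonneg_left (by positivity)))
    have g2 : JD (k + 1) (fun w => (pt e τ (1 - s) w, Φ (pt e τ (1 - s) w))) z (P + r) :=
      (p.mono (le_add_of_nonneg_right r0)).prod
        ((JD.of_sub (f := fun q => Φ (pt e τ (1 - s) q)) (Φ (pt e τ (1 - s) z)) hr.jd).mono
          (le_add_of_nonneg_left (by positivity)))
    have a := ((h3.mono DC).jb h2).comp_lin
      (f := fun w => (pt e τ (1 - s) w, Φ (pt e τ (1 - s) w))) g1 (by linarith) g2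
    have b := (h3.sub_const D0).comp_lin
      (f := fun w => (pt e τ (1 - s) w, Φ (pt e τ (1 - s) w))) g1 (by linarith) g2
    refine ((((hτ.sub_const C0).smul a).add (jb_csmul (τ z) b)).congr
      ((h1.fd hτ.sm _ (sc s m)).trans (.of_forall fun w => ?_))).mono ?_
    · have := ((sol_line h1).hasFDerivAt.comp (s, w) (hasFDerivAt_fst (𝕜 := ℝ))).fderiv
      simp only [Function.comp_def] at this
      simp only [this]
      simp [sub_smul, smul_sub]
    · have : |τ z| * (2 ^ k * (k ! * D * (P + F) ^ k) * (P + r) + D) ≤ C * (M * (P + r) + 1) := by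
        refine le_trans (le_of_eq ?_) (mul_le_mul_of_nonneg_right hD (by positivity))
        simp only [M]
        ring
      refine (add_le_add le_rfl this).trans (le_of_eq ?_)
      simp only [L, M, abs_of_nonneg C0]
      ring

/-- **Bounds for the jets**, with damping. -/
theorem dj (k : ℕ) (C : ℝ) : ∃ F, 1 ≤ F ∧ ∀ (X E : Type) [NormedAddCommGroup X]
    [NormedSpace ℝ X] [NormedAddCommGroup E] [NormedSpace ℝ E] (e : X) (τ : X → ℝ)
    (v : X × E → E) (Φ : X → E) (z : X) (D : ℝ), ‖e‖ ≤ C → JD k τ z C → 0 ≤ D → D ≤ C →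
    |τ z| * D ≤ C → (∀ s ∈ Icc (0 : ℝ) 1, Sol e v Φ (pt e τ s z) ∧
      ‖v (pt e τ s z, Φ (pt e τ s z))‖ ≤ C ∧ JD k v (pt e τ s z, Φ (pt e τ s z)) D) →
    JD k (fun w => Φ (pt e τ 1 w)) z C → JD k Φ z F :=
  let ⟨F, _, h⟩ := dj_core k C
  ⟨max 1 F, le_max_left _ _, fun X E _ _ _ _ e τ v Φ z D a b c d f g i => by
    simpa only [pt_zero] using
      (h X E e τ v Φ z D a b c d f g i 0 ⟨le_rfl, zero_le_one⟩).mono (le_max_right _ _)⟩

end Vale.Agent.P354SG
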