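import Vale.Agent.P354SG.JDefs
import Vale.Agent.P354CH.Wt

/-!
A priori bounds for the characteristics.
-/

open scoped ContDiff Topology
open Set Filter

noncomputable section

namespace Vale.Agent.P354SG

open Vale.Agent.P354n (R4)
open Vale.Agent.P354H (X3)
open Vale.Agent.P354XE (Tw)
open Vale.Agent.P354YQ
open Vale.Agent.P354SA
open Vale.Agent.P354CH (jb_one jb_pos jb_le jb_sq)

theorem barr {f f' : ℝ → ℝ} {b : ℝ} (hb : 0 < b) (hf : ∀ r ∈ Icc (0 : ℝ) 1, HasDerivAt f (f' r) r)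
    (h0 : f 0 ≤ 0) (h : ∀ r ∈ Icc (0 : ℝ) 1, 0 ≤ f r → f' r ≤ b) : f 1 ≤ 2 * b := by
  simpa using image_le_of_deriv_right_lt_deriv_boundary
    (fun r m => (hf r m).continuousAt.continuousWithinAt)
    (fun r m => (hf r (Ico_subset_Icc_self m)).hasDerivWithinAt) (B := fun r => 2 * b * r)
    (B' := fun _ => 2 * b) (by simpa using h0)
    (fun r => by simpa using (hasDerivAt_id r).const_mul (2 * b))
    (fun r m e => (h r (Ico_subset_Icc_self m) (e ▸ mul_nonneg (by linarith) m.1)).trans_lt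
      (by linarith)) (⟨zero_le_one, le_rfl⟩ : (1 : ℝ) ∈ Icc (0 : ℝ) 1)

theorem abs_le_jb (x : ℝ) : |x| ≤ jb x := Real.abs_le_sqrt (by linarith)

/-! ### The Hamiltonian of the metric -/

def Qv (g : Tw) (q : W6) : R2 := (∑ b, a2 g 0 b q.1 * lc b q.2, ∑ b, a2 g 1 b q.1 * lc b q.2)

variable {g : Tw} {q : W6} {n : ℕ} {C0 C r m l rc A : ℝ}

theorem hm_sa (h : Rp n C0 C r m l rc g q.1) : SA (Hm g) q := by
  have s : SA (fun y : W6 => y.1) q := .of contDiff_fst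
  have c : ∀ a, ContDiff ℝ ∞ fun y : W6 => lc a y.2 := fun a => by
    fin_cases a
    exacts [contDiff_snd.fst, contDiff_snd.snd]
  filter_upwards [h.sharp.1.sm.comp s, eventually_all.2 fun a => (h.sharp.2.1 a).sm.comp s,
    eventually_all.2 fun a => eventually_all.2 fun b => (h.sharp.2.2 a b).1.sm.comp s] with y u v w
  exact (u.add (.sum fun a _ => (v a).mul (c a).contDiffAt)).add
    (.sum fun a _ => .sum fun b _ => ((w a b).mul (c a).contDiffAt).mul (c b).contDiffAt)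

theorem hm_Hl (h : DifferentiableAt ℝ (Hm g) q) :
    Hl (Hm g) q = (a1 g 0 q.1, a1 g 1 q.1) + (2 : ℝ) • Qv g q ∧
      Hm g q - ip q.2 (Hl (Hm g) q) = a0 g q.1 - ip q.2 (Qv g q) := by
  have sy : a2 g 1 0 q.1 = a2 g 0 1 q.1 := by simp [a2, gi]
  have d : ∀ ζ : R2, fderiv ℝ (Hm g) q (0, ζ) =
      ip ζ ((a1 g 0 q.1, a1 g 1 q.1) + (2 : ℝ) • Qv g q) := fun ζ => by
    have a : HasDerivAt (fun t : ℝ => q + t • ((0, ζ) : W6)) (0, ζ) 0 := by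
      simpa using ((hasDerivAt_id (0 : ℝ)).smul_const ((0, ζ) : W6)).const_add q
    have b := h.hasFDerivAt.comp_hasDerivAt_of_eq 0 a (by simp)
    have i := hasDerivAt_id (0 : ℝ)
    refine b.unique ((((i.const_mul (ip ζ ((a1 g 0 q.1, a1 g 1 q.1) + (2 : ℝ) • Qv g q))).fun_add
      ((i.fun_mul i).const_mul (ip ζ (Qv g (q.1, ζ))))).const_add (Hm g q)).congr_of_eventuallyEq
        (.of_forall fun t => ?_) |>.congr_deriv (by simp))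
    simp [Hm, Qv, ip, lc, sy]
    ring
  have e : Hl (Hm g) q = (a1 g 0 q.1, a1 g 1 q.1) + (2 : ℝ) • Qv g q := by
    simp only [Hl, d]
    simp [ip, Prod.ext_iff]
  refine ⟨e, ?_⟩
  rw [e]
  simp [Hm, Qv, ip, lc, sy]
  ring

theorem Qv_le (h : ∀ a b, |a2 g a b q.1| ≤ A) : ‖Qv g q‖ ≤ 2 * A * ‖q.2‖ := by
  have k : ∀ a, |∑ b, a2 g a b q.1 * lc b q.2| ≤ 2 * A * ‖q.2‖ := fun a => by
    have h1 := mul_le_mul (h a 0) (norm_fst_le q.2) (norm_nonneg _) ((abs_nonneg _).trans (h a 0))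
    have h2 := mul_le_mul (h a 1) (norm_snd_le q.2) (norm_nonneg _) ((abs_nonneg _).trans (h a 0))
    rw [Fin.sum_univ_two]
    refine (abs_add_le _ _).trans ?_
    simp only [abs_mul, lc, Real.norm_eq_abs, Matrix.cons_val_zero, Matrix.cons_val_one] at *
    linarith
  exact max_le (k 0) (k 1)

/-! ### The configuration -/

structure Pm where
  n : ℕ
  (C0 C K0 N K ε T L w δ δ' sc sw σ R : ℝ)
  S : X3 → ℝ
  g : Tw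
  be : ℝ → ℝ
  La : R4 → ℝ

namespace Pm

variable (c : Pm)

def D : Set R4 := RD c.w c.δ c.S
def B : Set R2 := {b | b.1 ∈ Ioo (-5 * c.w) (6 * c.w) ∧ b.2 ∈ Ioo (-2 * c.T - 5 * c.w) (4 * c.w) ∧
  (-2 * c.δ' < b.1 - c.be b.2 ∨ -c.T < b.2) ∧ (b.1 - c.be b.2 < 2 * c.δ' ∨ b.2 < -1)}
abbrev zA (x : R4) : Prop := -(19 / 10 * c.T) < x.2.1
abbrev zB (x : R4) : Prop := x.2.1 ≤ -(19 / 10 * c.T)

structure Ok : Prop where
  ray : Ray (c.n + 4) c.C0 c.C c.ε c.T c.L c.w c.δ c.sc c.sw c.σ c.S c.g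
  k0 : 1 ≤ c.K0 ∧ c.C0 ≤ c.K0 ∧ c.K0 ≤ c.N
  w : 0 < c.w ∧ 2000 * c.w * (c.N * c.N) ≤ 1
  ε : 0 < c.ε ∧ c.ε ≤ 1 / 100 ∧ 120 * c.C * c.C0 * c.ε ^ 2 ≤ 1 ∧ 1 ≤ c.ε * c.T
  T : 100 ≤ c.L ∧ c.L ^ 2 ≤ c.T ∧ 10 * c.C ≤ c.T ∧ c.K ≤ c.L ∧ 1 ≤ c.K ∧ c.C0 ≤ c.T
  δ : 0 < c.δ' ∧ c.δ' ≤ c.w / 2 ∧ 16 * c.C * c.δ' ≤ c.δ
  lo : ∀ z ∈ c.D, Lo c.K0 c.K0 c.K0 (Hd (Hm c.g) 1 1 z) ∧ (9 / 5 * c.T ≤ z.1 - z.2.1 →
    Lo c.K0 (c.K0 / c.T) (c.K0 / c.T) (Hd (Hm c.g) c.T 1 z))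
  low : ∀ (H : W6 → ℝ) (τ : R4 → ℝ) (Φ : R4 → E6) (x : R4)
    (e1 e2 : ℝ), |τ x| * c.N ≤ 1 / 200 → 0 ≤ e1 → ‖(pr τ Φ x 0).2.2.2.1‖ ≤ 1 →
    (∀ r ∈ Icc (0 : ℝ) 1, Sol e0 (Fd 1 H) Φ (pr τ Φ x r).1 ∧
      (‖(pr τ Φ x r).2 - (pr τ Φ x 0).2‖ ≤ 1 / 100 → Lz c.K0 e1 e2 H (qq (pr τ Φ x r)).1)) →
    (∀ r ∈ Icc (0 : ℝ) 1, ‖(pr τ Φ x r).2 - (pr τ Φ x 0).2‖ ≤ 1 / 200 ∧
      ‖(pr τ Φ x r).2.2.2.1‖ ≤ 2 * (‖(pr τ Φ x 0).2.2.2.1‖ + |τ x| * e1)) ∧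
    ∀ (M : ℝ) (η : R2), 1 ≤ M → e2 * M ≤ c.K0 →
      ‖Wm M (fderiv ℝ Φ (pr τ Φ x 0).1 (0, 0, η))‖ ≤ 2 * ‖η‖ →
      ‖(fderiv ℝ Φ x (0, 0, η)).2.1 - (fderiv ℝ Φ (pr τ Φ x 0).1 (0, 0, η)).2.1‖ ≤ ‖η‖ / 2
  be : ContDiff ℝ ∞ c.be
  inv : ∀ (x : R4) (t : ℝ), c.La (x + t • e0) = c.La x
  ini : ∀ x : R4, x.2.1 ∈ Icc (-2 * c.T - 5 * c.w) (4 * c.w) → ‖x.2.2‖ < 7 →
    In (c.n + 2) c.K c.ε c.T c.L c.w c.S c.g c.be c.La x

/-- The characteristic through x exists. -/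
structure Tr (Φ : R4 → E6) (x : R4) : Prop where
  mem : x ∈ Cyl c.B 7
  sol : ∀ s ∈ Icc (0 : ℝ) 1, Sol e0 (Fd 1 (Hm c.g)) Φ (pt e0 (tu c.be) s x) ∧
    (qq (pt e0 (tu c.be) s x, Φ (pt e0 (tu c.be) s x))).1 ∈ c.D
  ft : ∀ᶠ w in 𝓝 x, Φ (pt e0 (tu c.be) 1 w) = x0 c.La w

/-- The a priori bounds. -/
structure Ap (x : R4) (X : E6) : Prop where
  y : ‖X.2.1 - x.2.2‖ ≤ 1 / 200 ∧ |X.2.2.2| ≤ 1 / 200
  a : c.zA x → |X.1 + x.2.1| ≤ 1 / 200 ∧ ‖X.2.2.1‖ * c.K0 ≤ 1 / 100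
  b : c.zB x → |X.1 - c.La x| ≤ c.T / 200 ∧ ‖X.2.2.1‖ ≤ 3 * c.ε * c.T

variable {c} {Φ : R4 → E6} {x z : R4}

namespace Ok

variable (h : c.Ok)
include h

theorem num : 1 ≤ c.N ∧ c.w ≤ 1 / 2000 ∧ 10000 ≤ c.T ∧ 1 ≤ c.T / c.L := by
  obtain ⟨a, -, b⟩ := h.k0
  obtain ⟨d, e⟩ := h.w
  obtain ⟨f, i, -⟩ := h.T
  have : 1 ≤ c.N * c.N := by nlinarith
  exact ⟨a.trans b, by nlinarith, by nlinarith, (one_le_div₀ (by linarith)).2 (by nlinarith)⟩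

theorem In (m : x ∈ Cyl c.B 7) : In (c.n + 2) c.K c.ε c.T c.L c.w c.S c.g c.be c.La x :=
  h.ini x (Ioo_subset_Icc_self m.1.2.1) m.2

theorem tau (m : x ∈ Cyl c.B 7) : |tu c.be x| ≤ 10 * c.w := by
  have a := (h.In m).rng
  have b := m.1.1
  rw [abs_le, tu]
  constructor <;> linarith [a.1, a.2, b.1, b.2]

theorem sa (m : q.1 ∈ c.D) : SA (Hm c.g) q := hm_sa (h.ray.pt _ m)

theorem saS {y : X3} (m : y ∈ Wn c.w) : SA c.S y := by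
  have a : c.L / c.T ≠ 0 := by
    have := h.T.1
    have := h.num.2.2.1
    positivity
  exact (SA.comp (f := fun v : X3 => (c.L / c.T)⁻¹ • (v - y)) (z := y)
    (by simpa using (h.ray.bot y m).2.2.1.sm) (SA.of (by fun_prop))).congr
    (.of_forall fun v => by simp only [smul_inv_smul₀ a, add_sub_cancel])

theorem core (t : c.Tr Φ x) {σ e1 e2 : ℝ} (hσ : 1 ≤ σ) (he : 0 ≤ e1) (hl : ‖gy c.La x‖ ≤ σ)
    (hz : ∀ z ∈ c.D, |z.1 - c.La x| ≤ σ / 100 → Lo c.K0 e1 e2 (Hd (Hm c.g) σ 1 z)) :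
    (∀ r ∈ Icc (0 : ℝ) 1, |(pr (tu c.be) Φ x r).2.1 - c.La x| ≤ σ / 200 ∧
      (‖(pr (tu c.be) Φ x r).2.2.1 - x.2.2‖ ≤ 1 / 200 ∧ |(pr (tu c.be) Φ x r).2.2.2.2| ≤ 1 / 200) ∧
      ‖(pr (tu c.be) Φ x r).2.2.2.1‖ ≤ 2 * (‖gy c.La x‖ + σ * (|tu c.be x| * e1))) ∧
    ∀ M, 1 ≤ M → e2 * M ≤ c.K0 → (∀ η : R2, ‖fderiv ℝ (gy c.La) x (0, 0, η)‖ ≤ σ * M * ‖η‖) →
      ∀ η : R2, ‖(fderiv ℝ Φ x (0, 0, η)).2.1 - η‖ ≤ ‖η‖ / 2 := by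
  have σ0 : 0 < σ := by linarith
  have ax1 : ∀ ξ : R4, 0 + ax 1 1 ξ = ξ := fun ξ => by simp [ax]
  have p0 : pr (tu c.be) (fun w => Bs σ 1 1 (Φ w)) x 0 =
      (pt e0 (tu c.be) 1 x, Bs σ 1 1 (x0 c.La x)) := by simp only [pr, sub_zero, t.ft.self_of_nhds]
  have sm : ∀ η : R2, ‖(σ * 1)⁻¹ • η‖ = σ⁻¹ * ‖η‖ := fun η => by
    rw [norm_smul, mul_one, Real.norm_of_nonneg (inv_pos.2 σ0).le]
  have s1 : ∀ X : E6, ∀ ρ, ‖Bs σ 1 1 X - Bs σ 1 1 (x0 c.La x)‖ ≤ ρ → |X.1 - c.La x| ≤ σ * ρ ∧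
      ‖X.2.1 - x.2.2‖ ≤ ρ ∧ |X.2.2.2| ≤ ρ := fun X ρ a => by
    rw [← map_sub, Bs_ap] at a
    simp only [Prod.norm_mk, max_le_iff, one_smul, one_mul, x0, Prod.fst_sub, Prod.snd_sub,
      sub_zero, Real.norm_eq_abs, abs_mul, abs_of_pos (inv_pos.2 σ0), inv_mul_le_iff₀ σ0] at a
    exact ⟨a.1, a.2.1, a.2.2.2⟩
  have τN : |tu c.be x| * c.N ≤ 1 / 200 := by
    nlinarith [h.tau t.mem, h.w.1, h.w.2, h.num.1, mul_le_mul_of_nonneg_left h.num.1 h.w.1.le]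
  obtain ⟨u, v⟩ := h.low (Hd (Hm c.g) σ 1 (0, (0 : R4).1, 0)) (tu c.be) (fun w => Bs σ 1 1 (Φ w)) x
    e1 e2 τN he (by
      rw [p0]
      exact (sm _).trans_le ((inv_mul_le_iff₀ σ0).2 (by rwa [mul_one]))) fun r m => by
    obtain ⟨a, b⟩ := t.sol _ (flip_mem m)
    have i := scale (x := 0) (κ := 1) (c := 1) (Φ := Φ) (ξ := pt e0 (tu c.be) (1 - r) x)
      (H := Hm c.g) σ0.ne' one_ne_zero (by rwa [ax1]) (by rw [ax1]; exact h.sa b)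
    simp only [ax1] at i
    refine ⟨i, fun d => lz_of ?_⟩
    rw [← hd_tr]
    have e := congrArg Prod.fst (qq_sc (x := 0) (κ := 1) (c := 1) (ξ := pt e0 (tu c.be) (1 - r) x)
      σ0.ne' one_ne_zero (Φ (pt e0 (tu c.be) (1 - r) x)))
    rw [ax1] at e
    rw [p0] at d
    exact (e ▸ hz _ b ((s1 _ _ d).1.trans_eq (by ring)) :)
  rw [p0] at u v
  refine ⟨fun r m => ?_, fun M M1 eM hM η => ?_⟩
  · obtain ⟨a, b⟩ := u r m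
    refine ⟨(s1 _ _ a).1.trans_eq (by ring), (s1 _ _ a).2, ?_⟩
    have := (sm (pr (tu c.be) Φ x r).2.2.2.1).symm.trans_le (b.trans_eq (congrArg
      (fun y => 2 * (y + _)) (sm (gy c.La x))))
    rw [inv_mul_le_iff₀ σ0] at this
    exact this.trans_eq (by field_simp)
  have o : (1 : ℝ) ∈ Icc (0 : ℝ) 1 := ⟨zero_le_one, le_rfl⟩
  have d : ∀ y, SA Φ y → fderiv ℝ (fun w => Bs σ 1 1 (Φ w)) y (0, 0, η) =
      Bs σ 1 1 (fderiv ℝ Φ y (0, 0, η)) := fun y a =>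
    congrArg (· (0, 0, η)) ((Bs σ 1 1).hasFDerivAt.comp y a.diff.hasFDerivAt).fderiv
  have := v M η M1 eM
  rw [d _ (t.sol 1 o).1.sm, d x (pt_zero (e := e0) (τ := tu c.be) ▸ (t.sol 0 ⟨le_rfl, zero_le_one⟩).1.sm :),
    d_foot h.be (t.sol 1 o).1 (h.In t.mem).sa t.ft rfl, mul_zero, zero_smul, sub_zero,
    d_split] at this
  simp only [Bs_ap, one_smul, zero_mul, zero_add] at this
  have η0 := norm_nonneg η
  refine this (max_le ?_ (max_le (by change ‖η‖ ≤ _; linarith) ?_))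
  · change |σ⁻¹ * _| ≤ _
    rw [abs_mul, abs_of_pos (inv_pos.2 σ0), inv_mul_le_iff₀ σ0]
    exact (ip_le _ _).trans (by nlinarith)
  · change ‖M⁻¹ • _‖ ≤ _
    have M0 : 0 < M := by linarith
    rw [norm_smul, sm, Real.norm_of_nonneg (inv_pos.2 M0).le, inv_mul_le_iff₀ M0,
      inv_mul_le_iff₀ σ0]
    exact (hM η).trans (by nlinarith [mul_nonneg (mul_pos σ0 M0).le η0])

theorem zb (m : x ∈ Cyl c.B 7) (b : c.zB x) (hz : z ∈ c.D) (d : |z.1 - c.La x| ≤ c.T / 100) :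
    9 / 5 * c.T ≤ z.1 - z.2.1 ∧ z.1 - z.2.1 ≤ 3 * c.T := by
  have a := abs_le.1 ((h.In m).zB b).1
  have d := abs_le.1 d
  obtain ⟨-, w, T, -⟩ := h.num
  have e := mul_le_mul_of_nonneg_right h.ε.2.1 (show 0 ≤ c.T by linarith)
  have f := hz.1.1
  have i := m.1.2.1.1
  constructor <;> linarith [a.1, a.2, d.1, d.2, f.1, f.2]

/-- The bounds along the characteristic, and the first variation. -/
theorem ap (t : c.Tr Φ x) : (∀ r ∈ Icc (0 : ℝ) 1, c.Ap x (pr (tu c.be) Φ x r).2) ∧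
    ∀ η : R2, ‖(fderiv ℝ Φ x (0, 0, η)).2.1 - η‖ ≤ ‖η‖ / 2 := by
  obtain ⟨N1, w, T, θ⟩ := h.num
  obtain ⟨k1, k2, k3⟩ := h.k0
  have τ := h.tau t.mem
  have τ0 := abs_nonneg (tu c.be x)
  have w0 := h.w.1
  have kk : |tu c.be x| * (c.K0 * c.K0) ≤ 1 / 200 :=
    (mul_le_mul τ (mul_self_le_mul_self (by linarith) k3) (by positivity) (by linarith)).trans
      (by linarith [h.w.2])
  rcases lt_or_ge (-(19 / 10 * c.T)) x.2.1 with a | b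
  · have e := ((h.In t.mem).zA a).1
    have g0 : gy c.La =ᶠ[𝓝 x] fun _ => 0 := e.eventuallyEq_nhds.mono fun y m => by
      have : HasFDerivAt (fun y : R4 => -y.2.1) _ y := (hasFDerivAt_snd (𝕜 := ℝ)).fst.neg
      simp [gy, dv, m.fderiv_eq, this.fderiv, ey]
    obtain ⟨u, v⟩ := h.core t le_rfl (zero_le_one.trans k1) (by simp [g0.self_of_nhds])
      fun z m _ => (h.lo z m).1
    refine ⟨fun r m => ⟨(u r m).2.1, fun _ => ⟨by simpa [e.self_of_nhds] using (u r m).1, ?_⟩,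
      fun b => absurd a (not_lt.2 b)⟩, v 1 le_rfl (mul_one _).le fun η => by simp [g0.fderiv_eq]⟩
    have := (u r m).2.2
    rw [g0.self_of_nhds, norm_zero] at this
    nlinarith
  · obtain ⟨-, -, b1, b2, -⟩ := (h.In t.mem).zB b
    obtain ⟨ε0, ε1, -, ε2⟩ := h.ε
    obtain ⟨L, -, -, KL, K1, -⟩ := h.T
    obtain ⟨u, v⟩ := h.core t (σ := c.T) (by linarith) (by positivity) (b1.trans (by nlinarith))
      fun z m d => (h.lo z m).2 (h.zb t.mem b m d).1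
    refine ⟨fun r m => ⟨(u r m).2.1, fun a => absurd a (not_lt.2 b), fun _ => ⟨(u r m).1,
      (u r m).2.2.trans ?_⟩⟩, v (c.K * (c.T / c.L)) (by nlinarith) ?_
        fun η => (b2 η).trans_eq (by ring)⟩
    · rw [show c.T * (|tu c.be x| * (c.K0 / c.T)) = |tu c.be x| * c.K0 by field_simp]
      nlinarith [mul_nonneg τ0 (zero_le_one.trans k1)]
    · rw [show c.K0 / c.T * (c.K * (c.T / c.L)) = c.K0 * (c.K / c.L) by field_simp]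
      exact mul_le_of_le_one_right (by linarith) ((div_le_one (by linarith)).2 KL)

end Ok

end Pm

end Vale.Agent.P354SG
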