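import Vale.Agent.P354SG.Ex
import Vale.Agent.P354SG.Inv

/-!
Barriers, existence of the characteristics, and the optical function.
-/

open scoped ContDiff Topology
open Set Filter

noncomputable section

namespace Vale.Agent.P354SG

open Vale.Agent.P354n (R4)
open Vale.Agent.P354H (X3)
open Vale.Agent.P354XE (Tw)
open Vale.Agent.P354XB (Box)
open Vale.Agent.P354YQ
open Vale.Agent.P354SA
open Vale.Agent.P354CH (jb_one jb_pos jb_le jb_sq)

theorem pr_one (τ : R4 → ℝ) (Φ : R4 → E6) (x : R4) : pr τ Φ x 1 = (x, Φ x) := by simp [pr, pt]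

theorem hd1 {E F : Type} [NormedAddCommGroup E] [NormedSpace ℝ E] [NormedAddCommGroup F]
    [NormedSpace ℝ F] {f : ℝ → E × F} {f' : E × F} {r : ℝ} (h : HasDerivAt f f' r) :
    HasDerivAt (fun t => (f t).1) f'.1 r ∧ HasDerivAt (fun t => (f t).2) f'.2 r :=
  ⟨(ContinuousLinearMap.fst ℝ E F).hasFDerivAt.comp_hasDerivAt r h,
    (ContinuousLinearMap.snd ℝ E F).hasFDerivAt.comp_hasDerivAt r h⟩

namespace Pm

variable {c : Pm} {Φ : R4 → E6} {x z p : R4} {ι : R4 → R2}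

theorem Tr.zero (t : c.Tr Φ x) : pr (tu c.be) Φ x 0 = ((c.be x.2.1, x.2), x0 c.La x) := by
  rw [pr, sub_zero, t.ft.self_of_nhds, foot]

theorem Tr.self (t : c.Tr Φ x) : Sol e0 (Fd 1 (Hm c.g)) Φ x ∧ (qq (x, Φ x)).1 ∈ c.D := by
  simpa only [pt_zero] using t.sol 0 ⟨le_rfl, zero_le_one⟩

structure Sl (c : Pm) (Φ : R4 → E6) (ι : R4 → R2) : Prop where
  tr : ∀ x ∈ Cyl c.B 7, c.Tr Φ x
  sm : ContDiffOn ℝ ∞ ι (Cyl c.B 6)
  inv : ∀ x ∈ Cyl c.B 6, ‖ι x‖ < 7 ∧ (Φ (jj ι x)).2.1 = x.2.2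

namespace Ok

variable (h : c.Ok)
include h

theorem a2A (m : z ∈ c.D) (a b : Fin 2) : |a2 c.g a b z| ≤ c.C0 :=
  ((h.ray.pt z m).sharp.2.2 a b).1.zero

theorem a2B (m : z ∈ c.D) (e : 9 / 5 * c.T ≤ z.1 - z.2.1) (a b : Fin 2) :
    |a2 c.g a b z| ≤ c.C0 / c.T ^ 2 := by
  have T := h.num.2.2.1
  refine ((h.ray.pt z m).sharp.2.2 a b).2.trans (div_le_div_of_nonneg_left
    (zero_le_one.trans h.ray.par.1) (by positivity) (pow_le_pow_left₀ (by linarith) ?_ 2))
  exact le_trans (by linarith [h.ray.par.2.2.2.2.1.2, h.T.2.2.1])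
    ((le_abs_self _).trans (abs_le_jb _))

theorem QA (a : c.zA x) {X : E6} (v : ℝ) (b : c.Ap x X) (m : ((X.1, v, X.2.1) : R4) ∈ c.D) :
    ‖X.2.2.1‖ ≤ 1 / 100 ∧ ‖Qv c.g ((X.1, v, X.2.1), X.2.2.1)‖ ≤ 1 / 50 := by
  have d := (b.a a).2
  have n := norm_nonneg X.2.2.1
  exact ⟨by nlinarith [h.k0.1], (Qv_le (q := (_, X.2.2.1)) (h.a2A m)).trans
    (by nlinarith [h.k0.2.1])⟩

theorem QB (a : c.zB x) {X : E6} (v : ℝ) (b : c.Ap x X) (m : ((X.1, v, X.2.1) : R4) ∈ c.D)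
    (e : 9 / 5 * c.T ≤ X.1 - v) :
    ‖Qv c.g ((X.1, v, X.2.1), X.2.2.1)‖ ≤ 6 * c.C0 * c.ε / c.T := by
  have T := h.num.2.2.1
  have := h.ray.par.1
  refine (Qv_le (q := (_, X.2.2.1)) (h.a2B m e)).trans
    ((mul_le_mul_of_nonneg_left (b.b a).2 (by positivity)).trans_eq ?_)
  field_simp
  ring

theorem bar (t : c.Tr Φ x) :
    x.1 - c.δ / 2 ≤ (Φ x).1 ∧ (Φ x).1 ≤ c.S (x.1, (Φ x).2.1) + c.δ / 2 := by
  obtain ⟨-, w, T, -⟩ := h.num
  obtain ⟨δ0, -, δ1⟩ := h.δ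
  obtain ⟨C01, C1, δp, -⟩ := h.ray.par
  obtain ⟨ε0, ε1, ε2, -⟩ := h.ε
  have A := (h.ap t).1
  have A1 : c.Ap x (Φ x) := by simpa only [pr_one] using A 1 ⟨zero_le_one, le_rfl⟩
  have m := fun r (i : r ∈ Icc (0 : ℝ) 1) => (t.sol _ (flip_mem i)).2
  have d := fun r (i : r ∈ Icc (0 : ℝ) 1) => sol_line (t.sol _ (flip_mem i)).1
  have dv : ∀ r, HasDerivAt (fun r => (pt e0 (tu c.be) (1 - r) x).1) (tu c.be x) r := fun r => by
    simpa [e0] using (hd1 (pt_d (e := e0) (τ := tu c.be) (z := x) r)).1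
  have e := fun r i => hm_Hl (h.sa (m r i)).diff
  have I := h.In t.mem
  have p0 := t.zero
  simp only [pr, Prod.mk.injEq] at p0
  have v := t.mem.1.1
  have εT := mul_le_mul_of_nonneg_right ε1 (show 0 ≤ c.T by linarith)
  rcases lt_or_ge (-(19 / 10 * c.T)) x.2.1 with a | b
  · have s := abs_le.1 (A1.a a).1
    have s2 := (abs_le.1 (h.ray.bot (x.1, (Φ x).2.1) t.self.2.1).1).1
    refine ⟨?_, by linarith [s.2]⟩
    rcases lt_or_ge x.2.1 (-1) with u | u
    · linarith [s.1, v.2]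
    have τ : tu c.be x < 2 * c.δ' := t.mem.1.2.2.2.resolve_right (not_lt.2 u)
    have := barr (b := 4 * c.δ') (by linarith) (fun r i => (dv r).fun_sub (hd1 (d r i)).1)
      (by
        rw [p0.2, p0.1]
        simp only [x0, (I.zA a).1.self_of_nhds]
        linarith [(I.hi u).2]) fun r i f => by
      obtain ⟨l, q⟩ := h.QA a _ (A r i) (m r i)
      have a0 := abs_le.1 (h.ray.top _ (m r i) (by simp only [qq]; linarith))
      have k := abs_le.1 ((ip_le _ _).trans (mul_le_mul (mul_le_mul_of_nonneg_left l zero_le_two) q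
        (norm_nonneg _) (by norm_num)))
      change _ - _ * (Hm c.g _ - ip _ _) ≤ _
      rw [(e r i).2]
      simp only [qq, pr] at a0 k ⊢
      nlinarith [a0.1, a0.2, k.1, k.2]
    simp only [sub_self, pt_zero] at this
    nlinarith
  have zb := fun r i => h.zb t.mem b (m r i) (((A r i).b b).1.trans (by linarith))
  refine ⟨?_, ?_⟩
  · have := (zb 1 ⟨zero_le_one, le_rfl⟩).1
    simp only [sub_self, pt_zero, qq] at this
    linarith
  have τ : -2 * c.δ' < tu c.be x := t.mem.1.2.2.1.resolve_right (by linarith)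
  have := barr (b := 4 * c.C * c.δ') (by positivity) (fun r i => (hd1 (d r i)).1.fun_sub
      ((h.saS (m r i).1).diff.hasFDerivAt.comp_hasDerivAt r ((dv r).prodMk (hd1 (hd1 (d r i)).2).1)))
      (by
        simp only [Function.comp]
        rw [p0.2, p0.1]
        simp only [x0]
        linarith [(I.zB b).2.1]) fun r i f => by
    have q := h.QB b _ (A r i) (m r i) (zb r i).1
    have l := ((A r i).b b).2
    have tr := h.ray.tr _ (m r i) (by simp only [Function.comp] at f; simp only [qq]; linarith)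
    have g := (h.ray.bot _ (m r i).1).2.1
    generalize hq : qq (pt e0 (tu c.be) (1 - r) x, Φ (pt e0 (tu c.be) (1 - r) x)) = q0 at *
    replace q : ‖Qv c.g q0‖ ≤ 6 * c.C0 * c.ε / c.T := hq ▸ q
    replace l : ‖q0.2‖ ≤ 3 * c.ε * c.T := hq ▸ l
    have e1 := hm_Hl (h.sa (q := q0) (hq ▸ m r i)).diff
    let G : R2 := (fderiv ℝ c.S q0.1.2 (ey 0).2, fderiv ℝ c.S q0.1.2 (ey 1).2)
    have k1 := (ip_le _ _).trans (mul_le_mul (mul_le_mul_of_nonneg_left l zero_le_two) q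
      (norm_nonneg _) (by positivity))
    have k2 := (ip_le G _).trans (mul_le_mul (mul_le_mul_of_nonneg_left (max_le (g 0) (g 1))
      zero_le_two) q (norm_nonneg _) (by positivity))
    rw [show 2 * (3 * c.ε * c.T) * (6 * c.C0 * c.ε / c.T) = 36 * (c.C0 * c.ε ^ 2) by
      field_simp; ring, abs_le] at k1
    rw [show 2 * (c.ε * c.T) * (6 * c.C0 * c.ε / c.T) = 12 * (c.C0 * c.ε ^ 2) by
      field_simp; ring, abs_le] at k2
    have k3 : 120 * (c.C0 * c.ε ^ 2) ≤ c.C⁻¹ := by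
      rw [le_inv_comm₀ (by positivity) (by positivity), inv_eq_one_div,
        le_div_iff₀ (by positivity)]
      linarith
    have k4 : c.C⁻¹ ≤ c.C := tr.1.trans tr.2
    have k5 : ((tu c.be x, (tu c.be x • Gd 1 (Hm c.g) q0).2.1) : X3) = tu c.be x • ((lh c.g q0.1).2 -
        (2 * (Qv c.g q0).1) • (ey 0).2 - (2 * (Qv c.g q0).2) • (ey 1).2) := by
      simp [Gd, e1.1, lh, ey, Prod.ext_iff]
      constructor <;> ring
    change tu c.be x * (Hm c.g _ - ip _ _) - fderiv ℝ c.S _ (_, (_ • Gd 1 _ _).2.1) ≤ _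
    rw [hq, k5, e1.2, map_smul, map_sub, map_sub, map_smul, map_smul]
    simp only [trv, ip, G, mem_Icc, smul_eq_mul] at tr k1 k2 ⊢
    rw [← mul_sub]
    have : ∀ y, -2 * c.C ≤ y → y ≤ 0 → tu c.be x * y ≤ 4 * c.C * c.δ' := fun y a b => by nlinarith
    refine this _ ?_ ?_ <;> linarith [tr.1, tr.2, k1.1, k1.2, k2.1, k2.2]
  simp only [sub_self, pt_zero, Function.comp] at this
  linarith

theorem oD : IsOpen c.D := isOpen_iff_mem_nhds.2 fun z m => by
  have o : IsOpen (Wn c.w) := (isOpen_Ioo.preimage continuous_fst).inter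
    (isOpen_lt continuous_snd.norm continuous_const)
  have a : ContinuousAt (fun y : R4 => c.S y.2 + c.δ) z :=
    ((h.saS m.1).cont.comp continuousAt_snd).add continuousAt_const
  exact (continuousAt_snd.eventually (o.eventually_mem m.1)).and
    ((ContinuousAt.eventually_lt (by fun_prop) continuousAt_fst m.2.1).and
      (continuousAt_fst.eventually_lt a m.2.2))

theorem oB : IsOpen c.B := by
  have a : Continuous fun b : R2 => b.1 - c.be b.2 :=
    continuous_fst.sub (h.be.continuous.comp continuous_snd)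
  exact (isOpen_Ioo.preimage continuous_fst).inter ((isOpen_Ioo.preimage continuous_snd).inter
    (((isOpen_lt continuous_const a).union (isOpen_lt continuous_const continuous_snd)).inter
      ((isOpen_lt a continuous_const).union (isOpen_lt continuous_snd continuous_const))))

theorem seg (m : x ∈ Cyl c.B 7) {s : ℝ} (i : s ∈ Icc (0 : ℝ) 1) :
    (pt e0 (tu c.be) s x).1 ∈ uIcc (c.be x.2.1) x.1 ∧ pt e0 (tu c.be) s x ∈ Cyl c.B 7 := by
  have a : (pt e0 (tu c.be) s x).1 ∈ uIcc (c.be x.2.1) x.1 := by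
    rw [← segment_eq_uIcc, segment_symm, segment_eq_image]
    exact ⟨s, i, by simp [pt_eq, tu]; ring⟩
  have r := (h.In m).rng
  have w := h.w.1
  have δ0 := h.δ.1
  refine ⟨a, ?_⟩
  have b := ordConnected_Ioo.uIcc_subset (⟨by linarith [r.1], by linarith [r.2]⟩ :
    c.be x.2.1 ∈ Ioo (-5 * c.w) (6 * c.w)) m.1.1 a
  rw [pt_eq] at b ⊢
  have e : x.1 - s * tu c.be x - c.be x.2.1 = (1 - s) * tu c.be x := by
    rw [tu]
    ring
  refine ⟨⟨b, m.1.2.1, m.1.2.2.1.imp_left fun (a : _ < tu c.be x) => lt_of_lt_of_eq ?_ e.symm,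
    m.1.2.2.2.imp_left fun (a : tu c.be x < _) => e.trans_lt ?_⟩, m.2⟩
  · rcases le_total 0 (tu c.be x) with u | u <;> nlinarith [i.1, i.2]
  · rcases le_total 0 (tu c.be x) with u | u <;> nlinarith [i.1, i.2]

theorem x0_pt (s : ℝ) (x : R4) : x0 c.La (pt e0 (tu c.be) s x) = x0 c.La x := by
  have e : c.La = fun y => c.La (y + -(s * tu c.be x) • e0) := funext fun y => (h.inv y _).symm
  have a : pt e0 (tu c.be) s x = x + -(s * tu c.be x) • e0 := by rw [pt, neg_smul, sub_eq_add_neg]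
  have b : fderiv ℝ c.La (pt e0 (tu c.be) s x) = fderiv ℝ c.La x := by
    rw [a, ← fderiv_comp_add_right, ← e]
  simp only [x0, gy, dv, b]
  rw [a, h.inv, ← a, pt_eq]

theorem start (m : x ∈ Cyl c.B 7) : c.be x.2.1 ≤ c.La x ∧ c.La x ≤ c.S (c.be x.2.1, x.2.2) := by
  obtain ⟨-, w, T, -⟩ := h.num
  have I := h.In m
  have r := I.rng
  have w0 := h.w.1
  have εT := mul_le_mul_of_nonneg_right h.ε.2.1 (show 0 ≤ c.T by linarith)
  rcases lt_or_ge (-(19 / 10 * c.T)) x.2.1 with a | b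
  · have := (abs_le.1 (h.ray.bot (c.be x.2.1, x.2.2) ⟨⟨by linarith [r.1], by linarith [r.2]⟩,
      m.2.trans (by norm_num)⟩).1).1
    rw [(I.zA a).1.self_of_nhds]
    exact ⟨(le_total x.2.1 (-1)).elim (fun u => by linarith [r.2]) fun u => (I.hi u).2, by linarith⟩
  · exact ⟨by linarith [(abs_le.1 (I.zB b).1).1, r.2], (I.zB b).2.1⟩

/-- **Existence of the characteristics.** -/
theorem ex : ∃ Φ, ∀ x ∈ Cyl c.B 7, c.Tr Φ x := by
  obtain ⟨-, w, T, -⟩ := h.num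
  have o : (1 : ℝ) ∈ Icc (0 : ℝ) 1 := ⟨zero_le_one, le_rfl⟩
  have w0 := h.w.1
  have δp := h.ray.par.2.2.1
  obtain ⟨Ω, Φ, oΩ, sub, a, -, -, k⟩ := ode_max (e := e0) (v := Fd 1 (Hm c.g))
    (U := {p | (qq p).1 ∈ c.D}) (h.oD.preimage qL.continuous.fst)
    (fun p m => (sa_Fd (h.sa m)).at.contDiffWithinAt) (cyl_open h.oB 7)
    (fun _ _ => SA.of (tu_cd h.be)) tu_add (x0 := x0 c.La)
    (fun z m => sa_x0 (h.In (h.seg m o).2).sa) fun z m s i => (h.seg m i).2
  have tr : ∀ x ∈ Ω, c.Tr Φ x := fun x m => ⟨sub m, fun s i =>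
    ⟨(a _ ((a x m).2.2.2 s i)).1, (a _ ((a x m).2.2.2 s i)).2.1⟩,
    (oΩ.eventually_mem m).mono fun y m => ((a _ ((a y m).2.2.2 1 o)).2.2.1
      (by rw [tau_pt tu_add]; simp)).trans (h.x0_pt 1 y)⟩
  refine ⟨Φ, fun x m => tr x ?_⟩
  have r := (h.In m).rng
  have sI := ordConnected_Ioo.uIcc_subset (⟨by linarith [r.1], by linarith [r.2]⟩ :
    c.be x.2.1 ∈ Ioo (-5 * c.w) (6 * c.w)) m.1.1
  let ρ := ‖x‖ + ‖x0 c.La x‖ + c.T
  let K0 : Set (R4 × E6) := {p | ‖p‖ ≤ ρ ∧ p.1.1 ∈ uIcc (c.be x.2.1) x.1 ∧ ‖p.2.2.1‖ ≤ 71 / 10 ∧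
    p.1.1 - c.δ / 2 ≤ p.2.1}
  have cl : IsClosed K0 := (isClosed_le continuous_norm continuous_const).inter
    ((isCompact_uIcc.isClosed.preimage continuous_fst.fst).inter
      ((isClosed_le continuous_snd.snd.fst.norm continuous_const).inter
        (isClosed_le (continuous_fst.fst.sub continuous_const) continuous_snd.fst)))
  have W : ∀ p ∈ K0, (p.1.1, p.2.2.1) ∈ Wn c.w := fun p i => ⟨sI i.2.1, i.2.2.1.trans_lt (by norm_num)⟩
  have cf : ContinuousOn (fun p : R4 × E6 => c.S (p.1.1, p.2.2.1) + c.δ / 2 - p.2.1) K0 :=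
    fun p i => ((ContinuousAt.comp (f := fun p : R4 × E6 => (p.1.1, p.2.2.1)) (h.saS (W p i)).cont
      (by fun_prop)).add continuousAt_const |>.sub (by fun_prop)).continuousWithinAt
  have n0 := norm_nonneg x
  have n1 := norm_nonneg (x0 c.La x)
  have np : ∀ s ∈ Icc (0 : ℝ) 1, ‖pt e0 (tu c.be) s x‖ ≤ ρ := fun s i => by
    refine (norm_sub_le _ _).trans ?_
    have : ‖e0‖ = 1 := by simp [e0]
    rw [norm_smul, this, mul_one, Real.norm_eq_abs, abs_mul, abs_of_nonneg i.1]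
    nlinarith [h.tau m, i.2, abs_nonneg (tu c.be x)]
  refine k x m _ (fun p i => ⟨W p i.1, ?_, ?_⟩) ((isCompact_closedBall 0 ρ).of_isClosed_subset
    (cf.preimage_isClosed_of_isClosed cl (isClosed_Ici (a := 0)))
    fun p i => mem_closedBall_zero_iff.2 i.1.1) ?_ fun s i j => ?_
  · have := i.1.2.2.2
    simp only [qq]
    linarith
  · have := mem_Ici.1 (mem_preimage.1 i.2)
    simp only [qq]
    linarith
  · rw [h.x0_pt]
    refine ⟨⟨max_le (np 1 o) (by simp only [ρ]; linarith), (h.seg m o).1,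
      m.2.le.trans (by norm_num), ?_⟩, ?_⟩ <;>
    · simp only [foot, x0, mem_preimage, mem_Ici]
      linarith [(h.start m).1, (h.start m).2]
  have i := Ioo_subset_Icc_self i
  have A := (h.ap (tr _ j)).1 1 o
  rw [pr_one] at A
  simp only at A
  have b := h.bar (tr _ j)
  have e : (pt e0 (tu c.be) s x).2 = x.2 := by rw [pt_eq]
  have y := (norm_le_norm_add_norm_sub' _ _).trans (add_le_add le_rfl A.y.1)
  have nx := norm_snd_le x
  have εT := mul_le_mul_of_nonneg_right h.ε.2.1 (show 0 ≤ c.T by linarith)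
  have m2 := m.2
  have n2 := norm_snd_le x.2
  rw [e] at y
  refine ⟨⟨max_le (np s i) ?_, (h.seg m i).1, by linarith, b.1⟩, sub_nonneg.2 b.2⟩
  have : |(Φ (pt e0 (tu c.be) s x)).1| ≤ ρ ∧ ‖(Φ (pt e0 (tu c.be) s x)).2.2.1‖ ≤ ρ := by
    simp only [ρ]
    rcases lt_or_ge (-(19 / 10 * c.T)) (pt e0 (tu c.be) s x).2.1 with a | a
    · obtain ⟨u, v⟩ := A.a a
      have := abs_le.1 (norm_fst_le x.2)
      rw [e, abs_le] at u
      exact ⟨abs_le.2 ⟨by linarith [u.1], by linarith [u.2]⟩,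
        by nlinarith [h.k0.1, norm_nonneg (Φ (pt e0 (tu c.be) s x)).2.2.1]⟩
    · obtain ⟨u, v⟩ := A.b a
      have : |c.La (pt e0 (tu c.be) s x)| ≤ ‖x0 c.La x‖ :=
        h.x0_pt s x ▸ norm_fst_le (x0 c.La (pt e0 (tu c.be) s x))
      rw [abs_le] at u this
      exact ⟨abs_le.2 ⟨by linarith [u.1], by linarith [u.2]⟩, by linarith⟩
  exact max_le this.1 (max_le (by simp only [ρ]; linarith) (max_le this.2
    (A.y.2.trans (by simp only [ρ]; linarith))))

theorem exs : ∃ Φ ι, c.Sl Φ ι := by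
  obtain ⟨Φ, t⟩ := h.ex
  obtain ⟨ι, a, b⟩ := P354SG.inv c.B (fun x => (Φ x).2.1) h.oB
    (fun x m => (t x m).self.1.sm.at.snd.fst.contDiffWithinAt) fun x m => by
      have A : c.Ap x (Φ x) := by
        simpa only [pr_one] using (h.ap (t x m)).1 1 ⟨zero_le_one, le_rfl⟩
      refine ⟨A.y.1.trans (by norm_num), fun η => ?_⟩
      rw [(t x m).self.1.sm.diff.hasFDerivAt.snd.fst.fderiv]
      exact (h.ap (t x m)).2 η
  exact ⟨Φ, ι, t, a, b⟩

end Ok

end Pm

end Vale.Agent.P354SG
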