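import Vale.Agent.P354SG.IDefs
import Vale.Agent.P354SG.Dj

/-!
The method of characteristics for a Hamilton-Jacobi equation.
-/

open scoped ContDiff Topology Nat
open Set Filter

noncomputable section

namespace Vale.Agent.P354SG

open Vale.Agent.P354n (R4)
open Vale.Agent.P354YQ
open Vale.Agent.P354SA

/-- The state (s, y, λ, J). -/
abbrev E6 : Type := ℝ × R2 × R2 × ℝ

def qq (p : R4 × E6) : W6 := ((p.2.1, p.1.1, p.2.2.1), p.2.2.2.1)

def Gd (c : ℝ) (H : W6 → ℝ) (q : W6) : E6 :=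
  (H q - ip q.2 (Hl H q), -Hl H q, Hy H q + Hs H q • q.2, c * Hs H q)

/-- The characteristic field. -/
def Fd (c : ℝ) (H : W6 → ℝ) (p : R4 × E6) : E6 := Gd c H (qq p)

def qL : R4 × E6 →L[ℝ] W6 :=
  LinearMap.mkContinuous ⟨⟨qq, fun _ _ => rfl⟩, fun _ _ => rfl⟩ 1 fun p => by
    rw [one_mul]
    have a := norm_fst_le p
    have b := norm_snd_le p
    have c := (norm_snd_le p.2).trans b
    exact max_le (max_le ((norm_fst_le p.2).trans b) (max_le ((norm_fst_le p.1).trans a)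
      ((norm_fst_le p.2.2).trans c))) ((norm_fst_le p.2.2.2).trans ((norm_snd_le p.2.2).trans c))

theorem qL_le : ‖qL‖ ≤ 1 := LinearMap.mkContinuous_norm_le _ zero_le_one _

def ipL : R2 →L[ℝ] R2 →L[ℝ] ℝ :=
  (ContinuousLinearMap.fst ℝ ℝ ℝ).smulRight (.fst ℝ ℝ ℝ) +
    (ContinuousLinearMap.snd ℝ ℝ ℝ).smulRight (.snd ℝ ℝ ℝ)

theorem ipL_ap (a b : R2) : ipL a b = ip a b := by simp [ipL, ip]

theorem ip_le (a b : R2) : |ip a b| ≤ 2 * ‖a‖ * ‖b‖ := by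
  have h1 := mul_le_mul (norm_fst_le a) (norm_fst_le b) (norm_nonneg _) (norm_nonneg _)
  have h2 := mul_le_mul (norm_snd_le a) (norm_snd_le b) (norm_nonneg _) (norm_nonneg _)
  refine (abs_add_le _ _).trans ?_
  simp only [abs_mul, Real.norm_eq_abs] at *
  linarith

variable {H : W6 → ℝ} {q : W6} {c : ℝ} {p : R4 × E6} {Φ : R4 → E6} {x ξ : R4} {k : ℕ}

theorem dH (a : ℝ) (η ζ : R2) :
    fderiv ℝ H q ((a, 0, η), ζ) = a * Hs H q + ip (Hy H q) η + ip ζ (Hl H q) := by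
  have : (((a, 0, η), ζ) : W6) = a • (e0, 0) + η.1 • (ey 0, 0) + η.2 • (ey 1, 0) +
      ζ.1 • (0, 1, 0) + ζ.2 • (0, 0, 1) := by simp [e0, ey]
  rw [this]
  simp only [map_add, map_smul, smul_eq_mul, Hs, Hy, Hl, ip]
  ring

theorem sa_dv {X F : Type} [NormedAddCommGroup X] [NormedSpace ℝ X] [NormedAddCommGroup F]
    [NormedSpace ℝ F] {f : X → F} {z : X} (h : SA f z) (w : X) :
    SA (fun y => fderiv ℝ f y w) z := h.fderiv.clm (.apply ℝ F w)

theorem sa_Hl (h : SA H q) : SA (Hl H) q := (sa_dv h _).prod (sa_dv h _)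

theorem sa_Gd (h : SA H q) : SA (Gd c H) q := by
  have s : SA (fun y : W6 => y.2) q := .of contDiff_snd
  have i := s.bil ipL (sa_Hl h)
  simp only [ipL_ap] at i
  have a : SA (fun y => -Hl H y) q := (sa_Hl h).mono fun _ m => m.neg
  have b : SA (Hy H) q := (sa_dv h _).prod (sa_dv h _)
  have d : SA (Hs H) q := sa_dv h _
  have e : SA (fun y => Hs H y • y.2) q := d.mono fun _ m => m.smul contDiffAt_snd
  have f : SA (fun y => c * Hs H y) q := d.mono fun _ m => contDiffAt_const.mul m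
  exact (h.sub i).prod (a.prod ((b.add e).prod f))

theorem sa_Fd (h : SA H (qq p)) : SA (Fd c H) p := (sa_Gd h).comp (SA.of qL.contDiff)

/-- The derivatives of the first two components of the field. -/
theorem dF (h : SA H (qq p)) (d : R4 × E6) :
    (fderiv ℝ (Fd c H) p d).2.1 = -fderiv ℝ (Hl H) (qq p) (qq d) ∧
    (fderiv ℝ (Fd c H) p d).1 = fderiv ℝ H (qq p) (qq d) - ip d.2.2.2.1 (Hl H (qq p)) -
      ip p.2.2.2.1 (fderiv ℝ (Hl H) (qq p) (qq d)) := by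
  have f := (sa_Fd (c := c) h).diff.hasFDerivAt
  have h1 := h.diff.hasFDerivAt.comp p qL.hasFDerivAt
  have h2 := (sa_Hl h).diff.hasFDerivAt.comp p qL.hasFDerivAt
  have h3 := (hasFDerivAt_snd (𝕜 := ℝ) (p := qq p)).comp p qL.hasFDerivAt
  refine ⟨congrArg (· d) (f.snd.fst.unique h2.neg), ?_⟩
  have := congrArg (· d) (f.fst.unique ((h1.sub (ipL.hasFDerivAt_of_bilinear h3 h2)).congr_of_eventuallyEq
    (.of_forall fun y => by simp only [Pi.sub_apply, ipL_ap]; rfl)))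
  refine this.trans ?_
  simp only [sub_apply, add_apply,
    ContinuousLinearMap.precompR_apply, ContinuousLinearMap.precompL_apply,
    ContinuousLinearMap.compL_apply, ContinuousLinearMap.comp_apply, ipL_ap, sub_sub]
  rw [add_comm]
  rfl

/-- The equation of variations. -/
theorem var_ode {X E : Type} [NormedAddCommGroup X] [NormedSpace ℝ X] [NormedAddCommGroup E]
    [NormedSpace ℝ E] {e x : X} {v : X × E → E} {Φ : X → E} (h : Sol e v Φ x)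
    (hv : DifferentiableAt ℝ v (x, Φ x)) (ξ : X) :
    fderiv ℝ (fun w => fderiv ℝ Φ w ξ) x e = fderiv ℝ v (x, Φ x) (ξ, fderiv ℝ Φ x ξ) := by
  have d := h.sm.fderiv.diff.hasFDerivAt
  have a : ∀ w, fderiv ℝ (fun y => fderiv ℝ Φ y w) x = _ := fun w =>
    ((ContinuousLinearMap.apply ℝ E w).hasFDerivAt.comp x d).fderiv
  have b := (hv.hasFDerivAt.comp x ((hasFDerivAt_id x).prodMk h.sm.diff.hasFDerivAt)).fderiv
  have sy := h.sm.at.isSymmSndFDerivAt (by simpa using le_inf 2)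
  rw [a]
  refine (sy e ξ).trans ((congrArg (· ξ) (a e)).symm.trans ?_)
  rw [Filter.EventuallyEq.fderiv_eq h.ode]
  exact congrArg (· ξ) b

/-- The contact form on the variation. -/
def kp (Φ : R4 → E6) (ξ x : R4) : ℝ :=
  ((fderiv ℝ Φ x ξ).1 - ip (Φ x).2.2.1 (fderiv ℝ Φ x ξ).2.1) * Real.exp (-(Φ x).2.2.2)

theorem kp_d (h : Sol e0 (Fd 1 H) Φ x) (hH : SA H (qq (x, Φ x))) (h0 : ξ.1 = 0) :
    DifferentiableAt ℝ (kp Φ ξ) x ∧ fderiv ℝ (kp Φ ξ) x e0 = 0 := by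
  have d1 := (sa_dv h.sm ξ).diff.hasFDerivAt
  have d0 := h.sm.diff.hasFDerivAt
  have d := ((d1.fst.sub (ipL.hasFDerivAt_of_bilinear d0.snd.snd.fst d1.snd.fst)).mul
    d0.snd.snd.snd.neg.exp).congr_of_eventuallyEq (f₁ := kp Φ ξ)
    (.of_forall fun y => by simp only [kp, Pi.sub_apply, Pi.mul_apply, ipL_ap]; rfl)
  refine ⟨d.differentiableAt, ?_⟩
  obtain ⟨a, b⟩ := dF (c := 1) hH (ξ, fderiv ℝ Φ x ξ)
  have e := dH (H := H) (q := qq (x, Φ x)) (fderiv ℝ Φ x ξ).1 (fderiv ℝ Φ x ξ).2.1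
    (fderiv ℝ Φ x ξ).2.2.1
  rw [← var_ode h (sa_Fd hH).diff] at a b
  rw [show qq (ξ, fderiv ℝ Φ x ξ) = (((fderiv ℝ Φ x ξ).1, 0, (fderiv ℝ Φ x ξ).2.1),
    (fderiv ℝ Φ x ξ).2.2.1) by simp [qq, h0]] at a b
  rw [d.fderiv]
  simp only [sub_apply, add_apply,
    ContinuousLinearMap.precompR_apply, ContinuousLinearMap.precompL_apply,
    ContinuousLinearMap.compL_apply, ContinuousLinearMap.comp_apply, ipL_ap,
    smul_apply, neg_apply, ContinuousLinearMap.coe_fst',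
    ContinuousLinearMap.coe_snd', a, b, e, h.ode.self_of_nhds, Pi.sub_apply, Pi.neg_apply]
  simp [Fd, Gd, ip, qq]
  ring

def tu (be : ℝ → ℝ) (x : R4) : ℝ := x.1 - be x.2.1
def x0 (La : R4 → ℝ) (x : R4) : E6 := (La x, x.2.2, gy La x, 0)
def muH (H : W6 → ℝ) (be : ℝ → ℝ) (La : R4 → ℝ) (x : R4) : ℝ :=
  dv e1 La x - deriv be x.2.1 * H (z0 be La x, gy La x)

variable {be : ℝ → ℝ} {La : R4 → ℝ}

theorem tu_cd (hb : ContDiff ℝ ∞ be) : ContDiff ℝ ∞ (tu be) := by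
  unfold tu
  fun_prop

theorem tu_add (z : R4) (t : ℝ) : tu be (z + t • e0) = tu be z + t := by
  simp [tu, e0]
  ring

theorem pt_eq (s : ℝ) : pt e0 (tu be) s x = (x.1 - s * tu be x, x.2) := by
  simp [pt, e0, Prod.ext_iff]

theorem foot : pt e0 (tu be) 1 x = (be x.2.1, x.2) := by simp [pt_eq, tu]

theorem sa_gy (h : SA La x) : SA (gy La) x := (sa_dv h _).prod (sa_dv h _)

theorem sa_x0 (h : SA La x) : SA (x0 La) x :=
  h.prod ((SA.of (by fun_prop)).prod ((sa_gy h).prod (SA.of contDiff_const)))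

theorem d_split (f : R4 → ℝ) (x ξ : R4) :
    fderiv ℝ f x ξ = ξ.1 * dv e0 f x + ξ.2.1 * dv e1 f x + ip (gy f x) ξ.2.2 := by
  have : ξ = ξ.1 • e0 + ξ.2.1 • e1 + ξ.2.2.1 • ey 0 + ξ.2.2.2 • ey 1 := by simp [e0, e1, ey]
  conv_lhs => rw [this]
  simp only [map_add, map_smul, smul_eq_mul, dv, gy, ip]
  ring

/-- The variation at the foot. -/
theorem d_foot (hb : ContDiff ℝ ∞ be) (h : Sol e0 (Fd 1 H) Φ (pt e0 (tu be) 1 x)) (hL : SA La x)
    (hx : ∀ᶠ w in 𝓝 x, Φ (pt e0 (tu be) 1 w) = x0 La w) (h0 : ξ.1 = 0) :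
    fderiv ℝ Φ (pt e0 (tu be) 1 x) ξ = (fderiv ℝ La x ξ, ξ.2.2, fderiv ℝ (gy La) x ξ, 0) -
      (deriv be x.2.1 * ξ.2.1) • Gd 1 H (z0 be La x, gy La x) := by
  have a : HasFDerivAt (fun w : R4 => w.2) (.snd ℝ _ _) x := hasFDerivAt_snd
  have b := (((hb.differentiable (by simp) x.2.1).hasDerivAt.hasFDerivAt.comp x a.fst).prodMk
    a).congr_of_eventuallyEq (f₁ := pt e0 (tu be) 1) (.of_forall fun y => foot)
  have d := congrArg (· ξ) (((h.sm.diff.hasFDerivAt.comp x b).congr_of_eventuallyEq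
    (hx.mono fun _ m => m.symm)).unique (hL.diff.hasFDerivAt.prodMk (a.snd.prodMk
      ((sa_gy hL).diff.hasFDerivAt.prodMk (hasFDerivAt_const (0 : ℝ) x)))))
  have e : Fd 1 H (pt e0 (tu be) 1 x, Φ (pt e0 (tu be) 1 x)) = Gd 1 H (z0 be La x, gy La x) := by
    rw [hx.self_of_nhds, foot]
    rfl
  rw [← e, ← h.ode.self_of_nhds, eq_sub_iff_add_eq, ← map_smul, ← map_add]
  refine Eq.trans (congrArg _ ?_) d
  simp [e0, Prod.ext_iff, h0, mul_comm]

/-- **The contact form vanishes up to the factor mu du.** -/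
theorem alpha (hb : ContDiff ℝ ∞ be) (hL : SA La x)
    (h : ∀ s ∈ Icc (0 : ℝ) 1, Sol e0 (Fd 1 H) Φ (pt e0 (tu be) s x) ∧
      SA H (qq (pt e0 (tu be) s x, Φ (pt e0 (tu be) s x))))
    (hx : ∀ᶠ w in 𝓝 x, Φ (pt e0 (tu be) 1 w) = x0 La w) (h0 : ξ.1 = 0) :
    (fderiv ℝ Φ x ξ).1 = ip (Φ x).2.2.1 (fderiv ℝ Φ x ξ).2.1 +
      ξ.2.1 * (muH H be La x * Real.exp (Φ x).2.2.2) := by
  have d : ∀ s ∈ Icc (0 : ℝ) 1, HasDerivAt (fun r => kp Φ ξ (pt e0 (tu be) (1 - r) x)) 0 s :=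
    fun s m => by
      obtain ⟨a, b⟩ := kp_d (h _ (flip_mem m)).1 (h _ (flip_mem m)).2 h0
      simpa [b] using line a
  have := constant_of_has_deriv_right_zero
    (fun s m => (d s m).continuousAt.continuousWithinAt)
    (fun s m => (d s (Ico_subset_Icc_self m)).hasDerivWithinAt) 1 ⟨zero_le_one, le_rfl⟩
  simp only [sub_self, sub_zero, pt_zero, kp, hx.self_of_nhds,
    d_foot hb (h 1 ⟨zero_le_one, le_rfl⟩).1 hL hx h0, d_split La x ξ, h0] at this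
  have e : Real.exp (-(Φ x).2.2.2) * Real.exp (Φ x).2.2.2 = 1 := by rw [← Real.exp_add]; simp
  simp [x0, Gd, ip] at this
  simp only [muH, ip]
  linear_combination Real.exp (Φ x).2.2.2 * this -
    ((fderiv ℝ Φ x ξ).1 - ((Φ x).2.2.1.1 * (fderiv ℝ Φ x ξ).2.1.1 +
      (Φ x).2.2.1.2 * (fderiv ℝ Φ x ξ).2.1.2)) * e

/-- The parameters of the characteristic through x. -/
def jj (ι : R4 → R2) (x : R4) : R4 := (x.1, x.2.1, ι x)

/-- **The differential of the solution.** -/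
theorem d_sol {ι : R4 → R2} {μ : ℝ} (hι : DifferentiableAt ℝ ι x) (h : Sol e0 (Fd 1 H) Φ (jj ι x))
    (hy : ∀ᶠ w in 𝓝 x, (Φ (jj ι w)).2.1 = w.2.2)
    (ha : ∀ ξ : R4, ξ.1 = 0 → (fderiv ℝ Φ (jj ι x) ξ).1 =
      ip (Φ (jj ι x)).2.2.1 (fderiv ℝ Φ (jj ι x) ξ).2.1 + ξ.2.1 * μ) (ζ : R4) :
    fderiv ℝ (fun w => (Φ (jj ι w)).1) x ζ = ζ.1 * H (qq (jj ι x, Φ (jj ι x))) + ζ.2.1 * μ +
      ip (Φ (jj ι x)).2.2.1 ζ.2.2 := by
  have a : HasFDerivAt (fun w : R4 => w.2) (.snd ℝ _ _) x := hasFDerivAt_snd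
  have d := h.sm.diff.hasFDerivAt.comp x
    ((hasFDerivAt_fst (𝕜 := ℝ) (p := x)).prodMk (a.fst.prodMk hι.hasFDerivAt))
  have e1 := congrArg (· ζ) d.fst.fderiv
  have e2 := congrArg (· ζ) ((d.snd.fst.congr_of_eventuallyEq (hy.mono fun _ m => m.symm)).unique
    a.snd)
  have e3 : fderiv ℝ Φ (jj ι x) (ζ.1, ζ.2.1, fderiv ℝ ι x ζ) =
      ζ.1 • Fd 1 H (jj ι x, Φ (jj ι x)) + fderiv ℝ Φ (jj ι x) (0, ζ.2.1, fderiv ℝ ι x ζ) := by
    rw [← h.ode.self_of_nhds, ← map_smul, ← map_add]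
    exact congrArg _ (by simp [e0, Prod.ext_iff])
  have e4 := ha (0, ζ.2.1, fderiv ℝ ι x ζ) rfl
  refine e1.trans ?_
  simp only [ContinuousLinearMap.comp_apply, ContinuousLinearMap.prod_apply,
    ContinuousLinearMap.coe_fst', ContinuousLinearMap.coe_snd', e3] at e2 ⊢
  rw [← e2, Prod.fst_add, e4]
  simp [Fd, Gd, ip, qq]
  ring

end Vale.Agent.P354SG
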