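import Vale.Agent.P354SG.Defs

/-!
The initial values of the characteristics. Parameters x = (v, u, y); the characteristic with the
label (u, y) starts at v = be u.
-/

open scoped ContDiff Topology
open Set Filter

noncomputable section

namespace Vale.Agent.P354SG

open Vale.Agent.P354n (R4)
open Vale.Agent.P354H (X3)
open Vale.Agent.P354XE (Tw)
open Vale.Agent.P354YQ (SA JB JD)
open Vale.Agent.P354SA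

/-- The scaling of the parameters. -/
def ax (θ κ : ℝ) (ξ : R4) : R4 := (θ⁻¹ * ξ.1, κ * ξ.2.1, θ⁻¹ • ξ.2.2)

/-- The initial point, and the initial value of the derivative along u. -/
def z0 (be : ℝ → ℝ) (La : R4 → ℝ) (x : R4) : R4 := (La x, be x.2.1, x.2.2)
def mu0 (g : Tw) (be : ℝ → ℝ) (La : R4 → ℝ) (x : R4) : ℝ :=
  dv e1 La x - deriv be x.2.1 * Hm g (z0 be La x, gy La x)

/-- The jets of the initial values. -/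
structure Ij (k : ℕ) (K l θ κ η : ℝ) (g : Tw) (be : ℝ → ℝ) (La : R4 → ℝ) (x : R4) : Prop where
  par : θ⁻¹ ≤ κ ∧ κ ≤ l ∧ 0 ≤ η
  jbe : JD k (fun ξ => θ * be (x + ax θ κ ξ).2.1) 0 K
  jla : JD k (fun ξ => l⁻¹ * La (x + ax θ κ ξ)) 0 K
  jgy : JD k (fun ξ => (l * θ)⁻¹ • gy La (x + ax θ κ ξ)) 0 K
  mu : JB k (fun ξ => mu0 g be La (x + ax θ κ ξ)) 0 K
  md : JD k (fun ξ => mu0 g be La (x + ax θ κ ξ)) 0 η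

structure In (k : ℕ) (K ε T L w : ℝ) (S : X3 → ℝ) (g : Tw) (be : ℝ → ℝ) (La : R4 → ℝ) (x : R4) :
    Prop where
  sa : SA La x
  rng : be x.2.1 ∈ Icc (-4 * w) (5 * w)
  lo : x.2.1 ≤ -2 → be x.2.1 ≤ max (-3 * w) (-x.2.1 - 2 * T)
  hi : -1 ≤ x.2.1 → min (4 * w) (-x.2.1) ≤ be x.2.1 ∧ be x.2.1 ≤ -x.2.1
  bot : x.2.1 ≤ -2 * T + 3 * w → be x.2.1 = -x.2.1 - 2 * T ∧ La x = S (be x.2.1, x.2.2)
  top : -4 * w ≤ x.2.1 → be x.2.1 = -x.2.1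
  zA : -(19 / 10 * T) < x.2.1 → (La =ᶠ[𝓝 x] fun x' => -x'.2.1) ∧
    mu0 g be La x ∈ Icc (-3 / 2) (-1 / 2) ∧
    ∃ η, η ≤ K * (jb x.2.1)⁻¹ ∧ Ij k K 1 1 1 η g be La x
  zB : x.2.1 ≤ -(19 / 10 * T) → |La x + x.2.1| ≤ 2 * ε * T ∧ La x ≤ S (be x.2.1, x.2.2) ∧
    ‖gy La x‖ ≤ ε * T ∧ (∀ η : R2, ‖fderiv ℝ (gy La) x (0, 0, η)‖ ≤ K * T * (T / L) * ‖η‖) ∧
    mu0 g be La x ∈ Icc (-K) (-K⁻¹) ∧
    ∃ κ η, η ≤ K * κ * (T / L) * (T⁻¹ + (jb (x.2.1 + 2 * T))⁻¹) ∧ Ij k K L (T / L) κ η g be La x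

def INI : Prop :=
  ∀ C0 : ℝ, ∃ w1 : ℝ, 0 < w1 ∧ ∀ w ∈ Ioc 0 w1, ∀ (n : ℕ) (C : ℝ), ∃ K ε0 : ℝ, 1 ≤ K ∧ 0 < ε0 ∧
    ∀ ε ∈ Ioc 0 ε0, ∃ T0 : ℝ, ∀ T L δ sc sw σ S g, T0 ≤ L → L ^ 2 ≤ T →
      Ray (n + 4) C0 C ε T L w δ sc sw σ S g → ∃ (be : ℝ → ℝ) (La : R4 → ℝ), ContDiff ℝ ∞ be ∧
        (∀ (x : R4) (t : ℝ), La (x + t • e0) = La x) ∧
        ∀ x : R4, x.2.1 ∈ Icc (-2 * T - 5 * w) (4 * w) → ‖x.2.2‖ < 7 →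
          In (n + 2) K ε T L w S g be La x

end Vale.Agent.P354SG
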