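import Vale.Agent.P354SG.Sc

/-!
JT: the jets of the optical function.
-/

open scoped ContDiff Topology
open Set Filter

noncomputable section

namespace Vale.Agent.P354SG

open Vale.Agent.P354n (R4)
open Vale.Agent.P354XE (Tw)
open Vale.Agent.P354YQ
open Vale.Agent.P354SA

/-- The coordinates (v, u, y) on the slab. -/
def co (R T : ℝ) (p : R4) : R4 := (p.1 + p.2.1 - R, p.1 - p.2.1 + R - 2 * T, p.2.2)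

/-- The bounds at a point of the characteristic. -/
structure Hb (n : ℕ) (K l θ m : ℝ) (H : W6 → ℝ) (q : W6) : Prop where
  sa : SA H q
  la : ‖q.2‖ ≤ 2 * (l * θ)
  bd : ∃ c0 : R2, ‖c0‖ ≤ K ∧ ∀ η : R2, ‖η‖ ≤ 2 →
    JB (n + 3) (fun y => Hd H l θ q.1 y - ip c0 y.2) (0, η) (K / θ) ∧
      JB (n + 2) (Hs (Hd H l θ q.1)) (0, η) (K * m / θ)

def JT : Prop :=
  ∀ (n : ℕ) (K : ℝ), ∃ F : ℝ, 1 ≤ F ∧ ∀ (g : Tw) (Φ : R4 → E6) (ι : R4 → R2) (be : ℝ → ℝ)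
    (La Λ : R4 → ℝ) (p x : R4) (R T l θ κ η m : ℝ), x = jj ι (co R T p) → 1 ≤ K → 1 ≤ l → 1 ≤ θ →
    0 < m → m ≤ K → η ≤ K * κ * θ * m → ContDiff ℝ ∞ be → |tu be x| ≤ 1 → SA ι (co R T p) →
    (∀ᶠ w in 𝓝 (co R T p), (Φ (jj ι w)).2.1 = w.2.2) →
    (∀ ζ : R2, ‖(fderiv ℝ Φ x (0, 0, ζ)).2.1 - ζ‖ ≤ ‖ζ‖ / 2) →
    (∀ s ∈ Icc (0 : ℝ) 1, Sol e0 (Fd 1 (Hm g)) Φ (pt e0 (tu be) s x) ∧
      Hb n K l θ m (Hm g) (qq (pt e0 (tu be) s x, Φ (pt e0 (tu be) s x)))) →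
    (∀ᶠ w in 𝓝 x, Φ (pt e0 (tu be) 1 w) = x0 La w) → Ij (n + 2) K l θ κ η g be La x →
    |(Φ x).2.2.2| ≤ 1 → (Λ =ᶠ[𝓝 p] fun q => (Φ (jj ι (co R T q))).1) →
    (dv nv Λ =ᶠ[𝓝 p] fun q =>
      2 * (mu0 g be La (jj ι (co R T q)) * Real.exp (Φ (jj ι (co R T q))).2.2.2)) →
    JD (n + 2) (fun ξ => Λ (dl θ⁻¹ θ⁻¹ p ξ)) 0 (F * l) ∧ Cl (n + 1) θ⁻¹ θ⁻¹ (dv nv Λ) p F ∧
      Cl n θ⁻¹ θ⁻¹ (dv nv (dv nv Λ)) p (F * θ * m)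

end Vale.Agent.P354SG
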