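import Vale.Agent.P354SG.Ex2
import Vale.Agent.P354YR.Geo1

/-!
The optical function on the slab.
-/

open scoped ContDiff Topology
open Set Filter

noncomputable section

namespace Vale.Agent.P354SG

open Vale.Agent.P354n (R4)
open Vale.Agent.P354R (Pull)
open Vale.Agent.P354XE (Tw pb)
open Vale.Agent.P354XB (Box)
open Vale.Agent.P354YQ
open Vale.Agent.P354SA
open Vale.Agent.P354CH (jb_one jb_pos jb_le jb_sq)

theorem jb_cmp {a b : ℝ} (h : |a - b| ≤ 1) : jb a ≤ 2 * jb b :=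
  Real.sqrt_le_iff.2 ⟨by linarith [jb_pos b], by
    rw [mul_pow, jb_sq]
    nlinarith [abs_le.1 h, sq_nonneg (a - 2 * b), sq_nonneg b]⟩

theorem jb_inv_cmp {a b : ℝ} (h : |a - b| ≤ 1) : (jb b)⁻¹ ≤ 2 * (jb a)⁻¹ := by
  rw [← div_eq_mul_inv, le_div_iff₀ (jb_pos a), inv_mul_le_iff₀ (jb_pos b), mul_comm]
  exact jb_cmp h

theorem mm_le {sw σ x : ℝ} (h : 1 ≤ σ) :
    0 ≤ mm sw σ x ∧ mm sw σ x ≤ (jb x)⁻¹ + (jb (x - sw))⁻¹ :=
  ⟨add_nonneg (inv_pos.2 (jb_pos _)).le (Real.rpow_nonneg (jb_pos _).le _), add_le_add le_rfl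
    ((Real.rpow_le_rpow_of_exponent_le (jb_one _) (neg_le_neg h)).trans_eq (Real.rpow_neg_one _))⟩

namespace Pm

def Bx (c : Pm) : Set R4 := Box (-c.δ') (c.T + c.δ') (c.R - 3 * c.w) (c.R + 4 * c.w) 6
def xx (c : Pm) (ι : R4 → R2) (p : R4) : R4 := jj ι (co c.R c.T p)
def Lm (c : Pm) (Φ : R4 → E6) (ι : R4 → R2) (p : R4) : ℝ := (Φ (c.xx ι p)).1

variable {c : Pm} {Φ : R4 → E6} {x z p : R4} {ι : R4 → R2}

theorem oX : IsOpen c.Bx := (isOpen_Ioo.preimage continuous_fst).inter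
  ((isOpen_Ioo.preimage (continuous_fst.add continuous_snd.fst)).inter
    (isOpen_lt continuous_snd.snd.norm continuous_const))

namespace Ok

variable (h : c.Ok)
include h

theorem mco (m : p ∈ c.Bx) : co c.R c.T p ∈ Cyl c.B 6 := by
  obtain ⟨⟨a1, a2⟩, ⟨b1, b2⟩, d⟩ := m
  obtain ⟨δ0, δ1, -⟩ := h.δ
  have T := h.num.2.2.1
  have w := h.w.1
  have u : (co c.R c.T p).2.1 ∈ Ioo (-2 * c.T - 5 * c.w) (4 * c.w) := by
    constructor <;> simp only [co] <;> linarith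
  have I := h.ini _ (Ioo_subset_Icc_self u) (d.trans (by norm_num))
  refine ⟨⟨by constructor <;> simp only [co] <;> linarith, u, ?_, ?_⟩, d⟩
  · refine (lt_or_ge (-c.T) (co c.R c.T p).2.1).symm.imp_left fun e => ?_
    rcases le_max_iff.1 (I.lo (by linarith)) with f | f <;> simp only [co] at f ⊢ <;> linarith
  · refine (lt_or_ge (co c.R c.T p).2.1 (-1)).symm.imp_left fun e => ?_
    rcases min_le_iff.1 (I.hi e).1 with f | f <;> simp only [co] at f ⊢ <;> linarith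

variable (s : c.Sl Φ ι) (m : p ∈ c.Bx)
include s m

theorem tr : c.Tr Φ (c.xx ι p) := s.tr _ ⟨(h.mco m).1, (s.inv _ (h.mco m)).1⟩

theorem sm_eq : sm c.R (c.Lm Φ ι) p = (qq (c.xx ι p, Φ (c.xx ι p))).1 :=
  Prod.ext rfl (Prod.ext rfl (s.inv _ (h.mco m)).2.symm)

theorem saι : SA ι (co c.R c.T p) := .of_on s.sm (cyl_open h.oB 6) (h.mco m)

theorem evι : ∀ᶠ w in 𝓝 (co c.R c.T p), (Φ (jj ι w)).2.1 = w.2.2 :=
  ((cyl_open h.oB 6).eventually_mem (h.mco m)).mono fun w i => (s.inv w i).2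

theorem saL' : SA (fun w => (Φ (jj ι w)).1) (co c.R c.T p) :=
  (SA.comp (f := jj ι) (h.tr s m).self.1.sm ((SA.of contDiff_fst).prod
    ((SA.of contDiff_snd.fst).prod (h.saι s m)))).clm (.fst ℝ _ _)

theorem saL : SA (c.Lm Φ ι) p :=
  SA.comp (f := co c.R c.T) (h.saL' s m) (SA.of (by unfold co; fun_prop))

theorem dL (ζ : R4) : fderiv ℝ (c.Lm Φ ι) p ζ =
    (ζ.1 + ζ.2.1) * Hm c.g (qq (c.xx ι p, Φ (c.xx ι p))) +
      (ζ.1 - ζ.2.1) * (mu0 c.g c.be c.La (c.xx ι p) * Real.exp (Φ (c.xx ι p)).2.2.2) +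
      ip (Φ (c.xx ι p)).2.2.1 ζ.2.2 := by
  have t := h.tr s m
  have a := hasFDerivAt_snd (𝕜 := ℝ) (p := p)
  have b := hasFDerivAt_fst (𝕜 := ℝ) (p := p)
  have d := (h.saL' s m).diff.hasFDerivAt.comp p (((b.add a.fst).sub_const c.R).prodMk
    (((((b.sub a.fst).add_const c.R).sub_const (2 * c.T))).prodMk a.snd))
  exact (congrArg (· ζ) d.fderiv).trans (d_sol (h.saι s m).diff t.self.1 (h.evι s m)
    (fun ξ e => alpha h.be (h.In t.mem).sa (fun r i => ⟨(t.sol r i).1, h.sa (t.sol r i).2⟩) t.ft e)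
    (ζ.1 + ζ.2.1, ζ.1 - ζ.2.1, ζ.2.2))

theorem d_nv : dv nv (c.Lm Φ ι) p =
    2 * (mu0 c.g c.be c.La (c.xx ι p) * Real.exp (Φ (c.xx ι p)).2.2.2) := by
  rw [dv, h.dL s m]
  norm_num [nv, ip]

theorem d_gy : gy (c.Lm Φ ι) p = (Φ (c.xx ι p)).2.2.1 := by
  simp [gy, dv, h.dL s m, ey, ip]

theorem q_eq : (sm c.R (c.Lm Φ ι) p, gy (c.Lm Φ ι) p) = qq (c.xx ι p, Φ (c.xx ι p)) := by
  rw [h.sm_eq s m, h.d_gy s m]
  rfl

theorem d_hj : dv (1, 1, 0, 0) (c.Lm Φ ι) p =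
    2 * Hm c.g (sm c.R (c.Lm Φ ι) p, gy (c.Lm Φ ι) p) := by
  rw [dv, h.dL s m, h.q_eq s m]
  norm_num [ip]

theorem mD : sm c.R (c.Lm Φ ι) p ∈ c.D := h.sm_eq s m ▸ (h.tr s m).self.2

theorem apx : c.Ap (c.xx ι p) (Φ (c.xx ι p)) := by
  simpa only [pr_one] using (h.ap (h.tr s m)).1 1 ⟨zero_le_one, le_rfl⟩

theorem ends : (p.1 = c.T → c.Lm Φ ι p = p.1 + p.2.1 - c.R) ∧
    (p.1 = 0 → c.Lm Φ ι p = c.S (p.2.1 - c.R, p.2.2)) := by
  have t := h.tr s m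
  have I := h.In t.mem
  have k : c.be (c.xx ι p).2.1 = (c.xx ι p).1 → Φ (c.xx ι p) = x0 c.La (c.xx ι p) := fun e => by
    have := t.ft.self_of_nhds
    rwa [foot, e] at this
  have v := m.2.1
  have T := h.num.2.2.1
  have w := h.num.2.1
  have u : (c.xx ι p).2.1 = p.1 - p.2.1 + c.R - 2 * c.T := rfl
  have u' : (c.xx ι p).1 = p.1 + p.2.1 - c.R := rfl
  refine ⟨fun e => ?_, fun e => ?_⟩
  · rw [Lm, k (by rw [I.top (by linarith [v.2])]; linarith)]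
    exact (I.zA (by linarith [v.2])).1.self_of_nhds.trans (by linarith)
  · obtain ⟨a, b⟩ := I.bot (by linarith [v.1])
    have f := k (by linarith)
    have y := (s.inv _ (h.mco m)).2
    rw [Lm, f]
    rw [show jj ι (co c.R c.T p) = c.xx ι p from rfl, f] at y
    exact b.trans (congrArg c.S (Prod.ext (by simp only; linarith) y))

theorem mu_bd : (c.zA (c.xx ι p) → -dv nv (c.Lm Φ ι) p ∈ Icc (1 / 2) 6) ∧
    (c.zB (c.xx ι p) → -dv nv (c.Lm Φ ι) p ∈ Icc c.K⁻¹ (4 * c.K)) := by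
  have I := h.In (h.tr s m).mem
  have j := abs_le.1 (h.apx s m).y.2
  have e1 := Real.add_one_le_exp (Φ (c.xx ι p)).2.2.2
  have e2 : Real.exp (Φ (c.xx ι p)).2.2.2 ≤ 2 := (Real.exp_le_exp.2 (j.2.trans (by norm_num))).trans
    ((Real.exp_bound_div_one_sub_of_interval (x := 1 / 2) (by norm_num) (by norm_num)).trans
      (by norm_num))
  have K0 : 0 < c.K⁻¹ := inv_pos.2 (zero_lt_one.trans_le h.T.2.2.2.2.1)
  rw [h.d_nv s m]
  refine ⟨fun a => ?_, fun a => ?_⟩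
  · obtain ⟨b, d⟩ := (I.zA a).2.1
    constructor <;> nlinarith [j.1]
  · obtain ⟨b, d⟩ := (I.zB a).2.2.2.2.1
    constructor <;> nlinarith [j.1]

theorem nv_neg : dv nv (c.Lm Φ ι) p < 0 := by
  have K0 : 0 < c.K⁻¹ := inv_pos.2 (zero_lt_one.trans_le h.T.2.2.2.2.1)
  rcases lt_or_ge (-(19 / 10 * c.T)) (c.xx ι p).2.1 with a | a
  exacts [by linarith [((h.mu_bd s m).1 a).1], by linarith [((h.mu_bd s m).2 a).1]]

omit m

theorem pull : Pull (sm c.R (c.Lm Φ ι)) (pb (sm c.R (c.Lm Φ ι)) c.g) c.Bx c.g c.D := by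
  refine ⟨oX, h.oD, h.ray.met, fun p m => ((h.saL s m).at.prodMk (by fun_prop)).contDiffWithinAt,
    fun p m => h.mD s m, fun p m => (injective_iff_map_eq_zero _).2 fun v e => ?_,
    fun _ _ _ _ => rfl⟩
  rw [P354YR.Geo.sm_fd (h.saL s m).diff] at e
  obtain ⟨a, b, d⟩ : fderiv ℝ (c.Lm Φ ι) p v = 0 ∧ v.1 + v.2.1 = 0 ∧ v.2.2 = 0 := by
    simpa [Prod.ext_iff] using e
  have f : v = v.1 • nv := by simp [nv, Prod.ext_iff, d, eq_neg_of_add_eq_zero_right b]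
  rw [f, map_smul, smul_eq_zero] at a
  rw [f, a.resolve_right (h.nv_neg s m).ne, zero_smul]

theorem inj : InjOn (sm c.R (c.Lm Φ ι)) c.Bx := fun p m q i e => by
  obtain ⟨a, b, d⟩ : c.Lm Φ ι p = c.Lm Φ ι q ∧ p.1 + p.2.1 = q.1 + q.2.1 ∧ p.2.2 = q.2.2 := by
    simpa [sm, Prod.ext_iff] using e
  have f : q = p + (1 * (q.1 - p.1)) • nv := by
    simp [nv, Prod.ext_iff, d]
    linarith
  have k : ∀ r ∈ Icc (0 : ℝ) 1, p + (r * (q.1 - p.1)) • nv ∈ c.Bx := fun r j =>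
    ⟨by
      have := convex_Ioo _ _ m.1 i.1 (sub_nonneg.2 j.2) j.1 (sub_add_cancel 1 r)
      rwa [show (1 - r) • p.1 + r • q.1 = (p + (r * (q.1 - p.1)) • nv).1 by simp [nv]; ring] at this,
      by simpa [nv, add_add_add_comm p.1] using m.2.1,
      by simpa [nv, Prod.mk_zero_zero] using m.2.2⟩
  have l : ∀ r ∈ Icc (0 : ℝ) 1, HasDerivAt (fun r => c.Lm Φ ι (p + (r * (q.1 - p.1)) • nv))
      ((q.1 - p.1) * dv nv (c.Lm Φ ι) (p + (r * (q.1 - p.1)) • nv)) r := fun r j => by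
    simpa [dv, Function.comp_def] using (h.saL s (k r j)).diff.hasFDerivAt.comp_hasDerivAt r
      ((((hasDerivAt_id r).mul_const (q.1 - p.1)).smul_const nv).const_add p)
  obtain ⟨r, j, u⟩ := exists_hasDerivAt_eq_zero zero_lt_one
    (fun r j => (l r j).continuousAt.continuousWithinAt) (by rw [← f]; simpa using a)
    fun r j => l r (Ioo_subset_Icc_self j)
  rw [f, (mul_eq_zero.1 u).resolve_right (h.nv_neg s (k r (Ioo_subset_Icc_self j))).ne]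
  simp

end Ok

end Pm

end Vale.Agent.P354SG
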